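import Crest.Agent.R327.Measure

set_option autoImplicit false

namespace Crest.Agent.R327

open Finset

/-- sum of the non-central weights -/
noncomputable def gN (x : ℝ) (e : ℕ) : ℝ :=
  ∑ j ∈ range (e + 1), if 2 * j = e then 0 else x ^ ((e - 2 * j) + (2 * j - e))

theorem gN_step (x : ℝ) (e : ℕ) : gN x (e + 2) = gN x e + 2 * x ^ (e + 2) := by
  unfold gN
  rw [sum_range_succ, sum_range_succ']
  have h1 : ∀ j : ℕ, (if 2 * (j + 1) = e + 2 then (0 : ℝ) else
      x ^ ((e + 2 - 2 * (j + 1)) + (2 * (j + 1) - (e + 2)))) =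
      if 2 * j = e then 0 else x ^ ((e - 2 * j) + (2 * j - e)) := by
    intro j
    have : (e + 2 - 2 * (j + 1)) + (2 * (j + 1) - (e + 2)) = (e - 2 * j) + (2 * j - e) := by omega
    rw [this]
    congr 1
    exact propext (by omega)
  simp only [h1]
  rw [if_neg (by omega), if_neg (by omega)]
  have h2 : e + 2 - 2 * 0 + (2 * 0 - (e + 2)) = e + 2 := by omega
  have h3 : e - 2 * (e + 1) + (2 * (e + 1) - e) = e + 2 := by omega
  rw [h2, h3]
  ring

theorem gN_even {x : ℝ} (hx : 0 ≤ x) (hx2 : x ^ 2 ≤ 1 / 2) (m : ℕ) :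
    gN x (2 * m) ≤ 4 * x ^ 2 - 4 * x ^ (2 * m + 2) := by
  induction m with
  | zero => simp [gN]
  | succ m ih =>
    have h : 2 * (m + 1) = 2 * m + 2 := by ring
    rw [h, gN_step, pow_add x (2 * m + 2) 2]
    have : 0 ≤ x ^ (2 * m + 2) := by positivity
    nlinarith

theorem gN_odd {x : ℝ} (hx : 0 ≤ x) (hx2 : x ^ 2 ≤ 1 / 2) (m : ℕ) :
    gN x (2 * m + 1) ≤ 4 * x - 4 * x ^ (2 * m + 1 + 2) := by
  induction m with
  | zero =>
    simp [gN, sum_range_succ]
    nlinarith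
  | succ m ih =>
    have h : 2 * (m + 1) + 1 = 2 * m + 1 + 2 := by ring
    rw [h, gN_step, pow_add x (2 * m + 1 + 2) 2]
    have : 0 ≤ x ^ (2 * m + 1 + 2) := by positivity
    nlinarith

theorem sig_term {r v : ℝ} (hr : 1 ≤ r) (hv : 0 < v) {e j m : ℕ} (hj : j ≤ e) (hm : e ≤ 2 * m + 1) :
    min (qq (r * v) v j (e - j)) (qq (r * v) v j (e - j))⁻¹ ≤
      (if 2 * j = e then (r ^ j)⁻¹ else 0) +
        r ^ m * (if 2 * j = e then 0 else v⁻¹ ^ ((e - 2 * j) + (2 * j - e))) := by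
  have hr0 : 0 < r := by linarith
  unfold qq
  rcases lt_trichotomy (2 * j) e with h | h | h
  · rw [if_neg h.ne, if_neg h.ne, zero_add]
    refine le_trans (min_le_right _ _) ?_
    obtain ⟨d, rfl⟩ : ∃ d, e = 2 * j + d := ⟨e - 2 * j, by omega⟩
    have e1 : 2 * j + d - j = j + d := by omega
    have e2 : 2 * j + d - 2 * j + (2 * j - (2 * j + d)) = d := by omega
    rw [e1, e2]
    have e3 : (v ^ (j + d) / (r * v) ^ j)⁻¹ = r ^ j * v⁻¹ ^ d := by
      rw [mul_pow, pow_add, inv_pow]; field_simp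
    rw [e3]
    exact mul_le_mul_of_nonneg_right (pow_le_pow_right₀ hr (by omega)) (by positivity)
  · rw [if_pos h, if_pos h, mul_zero, add_zero]
    refine le_trans (min_le_left _ _) (le_of_eq ?_)
    have e1 : e - j = j := by omega
    rw [e1, mul_pow]; field_simp
  · rw [if_neg h.ne', if_neg h.ne', zero_add]
    refine le_trans (min_le_left _ _) ?_
    obtain ⟨i, rfl⟩ : ∃ i, e = j + i := ⟨e - j, by omega⟩
    obtain ⟨d, rfl⟩ : ∃ d, j = i + d := ⟨j - i, by omega⟩
    have e1 : i + d + i - (i + d) = i := by omega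
    have e2 : i + d + i - 2 * (i + d) + (2 * (i + d) - (i + d + i)) = d := by omega
    rw [e1, e2]
    have e3 : v ^ i / (r * v) ^ (i + d) = (r ^ (i + d))⁻¹ * v⁻¹ ^ d := by
      rw [mul_pow, pow_add v, inv_pow]; field_simp
    rw [e3]
    refine mul_le_mul_of_nonneg_right ?_ (by positivity)
    exact le_trans (inv_le_one_of_one_le₀ (one_le_pow₀ hr)) (one_le_pow₀ hr)

theorem sig_even {r v : ℝ} (hr : 1 ≤ r) (hv : 0 < v) (hv2 : v⁻¹ ^ 2 ≤ 1 / 2) (m : ℕ) :
    sig (r * v) v (2 * m) ≤ (r ^ m)⁻¹ + r ^ m * (4 * v⁻¹ ^ 2) := by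
  have hr0 : 0 < r := by linarith
  unfold sig
  refine le_trans (sum_le_sum fun j hj => sig_term (m := m) hr hv
    (Nat.lt_succ_iff.mp (mem_range.mp hj)) (by omega)) ?_
  rw [sum_add_distrib, ← mul_sum]
  refine add_le_add (le_of_eq ?_) (mul_le_mul_of_nonneg_left ?_ (by positivity))
  · rw [sum_eq_single m]
    · simp
    · intro j _ hj
      rw [if_neg (by omega)]
    · intro h
      exact absurd (mem_range.mpr (by omega)) h
  · have h := gN_even (x := v⁻¹) (by positivity) hv2 m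
    have : 0 ≤ v⁻¹ ^ (2 * m + 2) := by positivity
    unfold gN at h
    linarith

theorem sig_odd {r v : ℝ} (hr : 1 ≤ r) (hv : 0 < v) (hv2 : v⁻¹ ^ 2 ≤ 1 / 2) (m : ℕ) :
    sig (r * v) v (2 * m + 1) ≤ r ^ m * (4 * v⁻¹) := by
  have hr0 : 0 < r := by linarith
  unfold sig
  refine le_trans (sum_le_sum fun j hj => sig_term (m := m) hr hv
    (Nat.lt_succ_iff.mp (mem_range.mp hj)) (by omega)) ?_
  rw [sum_add_distrib, ← mul_sum, sum_eq_zero (fun j _ => if_neg (by omega)), zero_add]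
  refine mul_le_mul_of_nonneg_left ?_ (by positivity)
  have h := gN_odd (x := v⁻¹) (by positivity) hv2 m
  have : 0 ≤ v⁻¹ ^ (2 * m + 1 + 2) := by positivity
  unfold gN at h
  linarith

theorem sig_zero (u v : ℝ) : sig u v 0 = 1 := by simp [sig, qq]

theorem sig_le_succ {u v : ℝ} (hu : 0 < u) (hv : 0 < v) (e : ℕ) : sig u v e ≤ e + 1 := by
  unfold sig
  refine le_trans (sum_le_card_nsmul _ _ 1 fun j _ => ?_) (by simp)
  have h := qq_pos hu hv j (e - j)
  rcases le_total (qq u v j (e - j)) 1 with h1 | h1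
  · exact le_trans (min_le_left _ _) h1
  · exact le_trans (min_le_right _ _) (inv_le_one_of_one_le₀ h1)

open Real

/-- the skew parameter -/
noncomputable def kap (L : ℝ) : ℝ := L / (8 * exp (L / 2))
/-- the raising scale -/
noncomputable def vv (L : ℝ) : ℝ := exp (L / 4)
/-- the lowering scale -/
noncomputable def uu (L : ℝ) : ℝ := exp (kap L) * vv L

theorem vv_pos (L : ℝ) : 0 < vv L := exp_pos _
theorem uu_pos (L : ℝ) : 0 < uu L := mul_pos (exp_pos _) (exp_pos _)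

theorem kap_mul (L : ℝ) : exp (L / 2) * kap L = L / 8 := by
  unfold kap; field_simp

theorem kap_nonneg {L : ℝ} (hL : 192 ≤ L) : 0 ≤ kap L := by
  unfold kap; positivity

theorem vv_inv (L : ℝ) : (vv L)⁻¹ = exp (-(L / 4)) := by rw [vv, exp_neg]

theorem vv_inv_sq (L : ℝ) : (vv L)⁻¹ ^ 2 = exp (-(L / 2)) := by
  rw [vv_inv, ← exp_nat_mul]; congr 1; push_cast; ring

theorem vv_inv_sq_le {L : ℝ} (hL : 192 ≤ L) : (vv L)⁻¹ ^ 2 ≤ 1 / 2 := by
  rw [vv_inv_sq, exp_neg, inv_le_comm₀ (exp_pos _) (by norm_num)]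
  have := add_one_le_exp (L / 2)
  norm_num
  linarith

theorem sig_odd_le {L : ℝ} (hL : 192 ≤ L) (m : ℕ) (he : ((2 * m + 1 : ℕ) : ℝ) ≤ exp (L / 2)) :
    sig (uu L) (vv L) (2 * m + 1) ≤ exp (-(L / 32)) := by
  have hk := kap_nonneg hL
  refine le_trans (sig_odd (one_le_exp hk) (vv_pos L) (vv_inv_sq_le hL) m) ?_
  rw [vv_inv, ← exp_nat_mul]
  have h1 : (m : ℝ) * kap L ≤ L / 16 := by
    have := kap_mul L
    push_cast at he
    nlinarith
  have h2 : 4 ≤ exp (5 * L / 32) := by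
    have := add_one_le_exp (5 * L / 32)
    linarith
  calc exp (m * kap L) * (4 * exp (-(L / 4))) ≤
        exp (L / 16) * (exp (5 * L / 32) * exp (-(L / 4))) := by gcongr
    _ = exp (-(L / 32)) := by rw [← exp_add, ← exp_add]; congr 1; ring

theorem sig_le {L : ℝ} (hL : 192 ≤ L) (e : ℕ) (he : (e : ℝ) ≤ exp (L / 2)) :
    sig (uu L) (vv L) e ≤ exp (-(e * (kap L / 4))) := by
  have hk := kap_nonneg hL
  have hkm := kap_mul L
  obtain ⟨m, rfl | rfl⟩ := Nat.even_or_odd' e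
  · rcases Nat.eq_zero_or_pos m with rfl | hm
    · simp [sig_zero]
    refine le_trans (sig_even (one_le_exp hk) (vv_pos L) (vv_inv_sq_le hL) m) ?_
    rw [vv_inv_sq, ← exp_nat_mul, ← exp_neg]
    obtain ⟨θ, hθ⟩ : ∃ θ : ℝ, θ = m * kap L / 2 := ⟨_, rfl⟩
    have e1 : (m : ℝ) * kap L = 2 * θ := by rw [hθ]; ring
    have e2 : ((2 * m : ℕ) : ℝ) * (kap L / 4) = θ := by rw [hθ]; push_cast; ring
    rw [e1, e2]
    have hm' : (1 : ℝ) ≤ m := by exact_mod_cast hm
    have hθ1 : kap L / 2 ≤ θ := by rw [hθ]; nlinarith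
    have hθ2 : θ ≤ L / 32 := by
      push_cast at he
      rw [hθ]; nlinarith
    have hθ0 : 0 ≤ θ := by linarith
    have key : 4 * exp (-(L / 2)) ≤ θ * exp (-(4 * θ)) := by
      rcases le_total θ (1 / 4) with h | h
      · have h3 : 1 / 3 ≤ exp (-(4 * θ)) := by
          have h4 : exp (-1) ≤ exp (-(4 * θ)) := exp_le_exp.mpr (by linarith)
          have h5 := exp_neg_one_gt_d9
          linarith
        have h6 : 4 * exp (-(L / 2)) ≤ kap L / 2 * (1 / 3) := by
          unfold kap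
          rw [exp_neg]
          have := exp_pos (L / 2)
          field_simp
          linarith
        calc _ ≤ kap L / 2 * (1 / 3) := h6
          _ ≤ _ := by gcongr
      · have h3 : 16 ≤ exp (3 * L / 8) := by
          have := add_one_le_exp (3 * L / 8)
          linarith
        calc 4 * exp (-(L / 2)) = 1 / 4 * (16 * exp (-(L / 2))) := by ring
          _ ≤ 1 / 4 * (exp (3 * L / 8) * exp (-(L / 2))) := by gcongr
          _ = 1 / 4 * exp (-(L / 8)) := by rw [← exp_add]; congr 2; ring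
          _ ≤ _ := by
              gcongr
              linarith
    have h7 : exp (2 * θ) * exp (-(4 * θ)) = exp (-(2 * θ)) := by rw [← exp_add]; congr 1; ring
    have h8 : exp (-(2 * θ)) * exp θ = exp (-θ) := by rw [← exp_add]; congr 1; ring
    have h9 := add_one_le_exp θ
    calc exp (-(2 * θ)) + exp (2 * θ) * (4 * exp (-(L / 2)))
        ≤ exp (-(2 * θ)) + exp (2 * θ) * (θ * exp (-(4 * θ))) := by gcongr
      _ = exp (-(2 * θ)) * (θ + 1) := by rw [← h7]; ring
      _ ≤ exp (-(2 * θ)) * exp θ := by gcongr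
      _ = _ := h8
  · refine le_trans (sig_odd_le hL m he) (exp_le_exp.mpr ?_)
    nlinarith

theorem sig_le_one {L : ℝ} (hL : 192 ≤ L) (e : ℕ) (he : e ≤ 1) :
    sig (uu L) (vv L) e ≤ exp (-(e * (L / 32))) := by
  interval_cases e
  · simp [sig_zero]
  · have := sig_odd_le hL 0 (by simpa using (by linarith : 0 ≤ L / 2))
    simpa using this

theorem one_lt_vv {L : ℝ} (hL : 192 ≤ L) : 1 < vv L := one_lt_exp_iff.mpr (by linarith)

theorem vv_le_uu {L : ℝ} (hL : 192 ≤ L) : vv L ≤ uu L :=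
  le_mul_of_one_le_left (vv_pos L).le (one_le_exp (kap_nonneg hL))

theorem uu_sq_le (L : ℝ) : uu L ^ 2 ≤ 2 * exp (L / 2) := by
  have h1 : kap L ≤ 1 / 4 := by
    unfold kap
    have := add_one_le_exp (L / 2)
    rw [div_le_iff₀ (by positivity)]
    linarith
  have h2 : exp (kap L) ^ 2 ≤ 2 := by
    rw [← exp_nat_mul, ← exp_log (show (0 : ℝ) < 2 by norm_num)]
    apply exp_le_exp.mpr
    have := log_two_gt_d9
    push_cast
    linarith
  have h3 : vv L ^ 2 = exp (L / 2) := by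
    rw [vv, ← exp_nat_mul]; congr 1; push_cast; ring
  rw [uu, mul_pow, h3]
  gcongr

theorem prod_le_exp {α : Type*} (s : Multiset α) (f : α → ℝ) (d : α → ℕ) (c : ℝ)
    (h0 : ∀ a ∈ s, 0 ≤ f a) (h : ∀ a ∈ s, f a ≤ exp (-(d a * c))) :
    (s.map f).prod ≤ exp (-(((s.map d).sum : ℕ) * c)) := by
  induction s using Multiset.induction_on with
  | empty => simp
  | cons a s ih =>
    rw [Multiset.map_cons, Multiset.prod_cons, Multiset.map_cons, Multiset.sum_cons]
    have ih' := ih (fun b hb => h0 b (Multiset.mem_cons_of_mem hb))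
      (fun b hb => h b (Multiset.mem_cons_of_mem hb))
    have hp : 0 ≤ (s.map f).prod := Multiset.prod_nonneg (by
      intro x hx
      obtain ⟨b, hb, rfl⟩ := Multiset.mem_map.mp hx
      exact h0 b (Multiset.mem_cons_of_mem hb))
    calc f a * (s.map f).prod ≤ exp (-(d a * c)) * exp (-(((s.map d).sum : ℕ) * c)) :=
          mul_le_mul (h a (Multiset.mem_cons_self _ _)) ih' hp (exp_pos _).le
      _ = _ := by rw [← exp_add]; congr 1; push_cast; ring

/-- the final numerical step -/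
theorem final_num {L T : ℝ} (hL : 192 ≤ L) (k : ℕ) (hk : ((k + 1 : ℕ) : ℝ) = exp L) (hT : 0 ≤ T)
    (h : ((k + 1 : ℕ) : ℝ) ^ k / uu L ≤
      (T * T * ((((k + 1 : ℕ) : ℝ) + 1) * exp (-(exp (L / 2) * (L / 32))))) *
        (2 * (((k + 1 : ℕ) : ℝ) + uu L ^ 2) ^ k)) :
    exp (L * (exp (L / 2) / 400)) ≤ T := by
  have hk' : (k : ℝ) ≤ exp L := by rw [← hk]; push_cast; linarith
  rw [hk] at h
  obtain ⟨w, hw⟩ : ∃ w, w = exp (L / 2) := ⟨_, rfl⟩
  have hw2 : exp L = w ^ 2 := by rw [hw, ← exp_nat_mul]; congr 1; push_cast; ring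
  have hw0 : 97 ≤ w := by
    have := add_one_le_exp (L / 2)
    linarith
  have hu := uu_sq_le L
  have hu0 := uu_pos L
  rw [← hw] at h hu ⊢
  rw [hw2] at h hk'
  have hu1 : uu L ≤ w ^ 2 := by
    have : uu L ≤ w := le_of_sq_le_sq (by nlinarith) (by linarith)
    nlinarith
  have h1 : (w ^ 2 + uu L ^ 2) ^ k ≤ (w ^ 2) ^ k * exp (2 * w) := by
    have e1 : w ^ 2 + uu L ^ 2 ≤ w ^ 2 * exp (2 / w) := by
      have := add_one_le_exp (2 / w)
      calc w ^ 2 + uu L ^ 2 ≤ w ^ 2 * (2 / w + 1) := by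
            field_simp
            nlinarith
        _ ≤ _ := by gcongr
    calc _ ≤ (w ^ 2 * exp (2 / w)) ^ k := pow_le_pow_left₀ (by positivity) e1 k
      _ = (w ^ 2) ^ k * exp (k * (2 / w)) := by rw [mul_pow, ← exp_nat_mul]
      _ ≤ _ := by
          refine mul_le_mul_of_nonneg_left (exp_le_exp.mpr ?_) (by positivity)
          calc (k : ℝ) * (2 / w) ≤ w ^ 2 * (2 / w) := by gcongr
            _ = 2 * w := by field_simp
  have h2 : 2 * w ^ 2 * (w ^ 2 + 1) ≤ exp (3 * w) := by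
    have := pow_div_factorial_le_exp (3 * w) (by positivity) 4
    norm_num [Nat.factorial] at this
    have h4 : 2 ≤ w ^ 2 := by nlinarith
    have h5 : 2 * w ^ 2 ≤ w ^ 2 * w ^ 2 := by nlinarith
    nlinarith
  have h3 : 1 ≤ T * T * exp (-(w * (L / 32)) + 5 * w) := by
    rw [div_le_iff₀ hu0] at h
    have hp : 0 < (w ^ 2) ^ k := by positivity
    refine le_of_mul_le_mul_left ?_ hp
    calc (w ^ 2) ^ k * 1 = (w ^ 2) ^ k := mul_one _
      _ ≤ _ := h
      _ ≤ T * T * ((w ^ 2 + 1) * exp (-(w * (L / 32)))) * (2 * ((w ^ 2) ^ k * exp (2 * w))) *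
          w ^ 2 := by gcongr
      _ = (w ^ 2) ^ k * (T * T * (exp (-(w * (L / 32))) * exp (2 * w) *
          (2 * w ^ 2 * (w ^ 2 + 1)))) := by ring
      _ ≤ (w ^ 2) ^ k * (T * T * (exp (-(w * (L / 32))) * exp (2 * w) * exp (3 * w))) := by gcongr
      _ = _ := by rw [← exp_add, ← exp_add]; congr 3; ring
  refine le_of_sq_le_sq ?_ hT
  calc exp (L * (w / 400)) ^ 2 ≤ exp (L * (w / 400)) ^ 2 * (T * T * exp (-(w * (L / 32)) + 5 * w)) :=
        le_mul_of_one_le_right (by positivity) h3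
    _ = T ^ 2 * exp (2 * (L * (w / 400)) + (-(w * (L / 32)) + 5 * w)) := by
        rw [exp_add _ (-(w * (L / 32)) + 5 * w), ← exp_nat_mul]; push_cast; ring
    _ ≤ T ^ 2 * 1 := by
        gcongr
        apply exp_le_one_iff.mpr
        nlinarith
    _ = T ^ 2 := mul_one _

end Crest.Agent.R327
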