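import Crest.Agent.R327.Word
import Crest.Agent.R327.Numerics

set_option autoImplicit false

namespace Crest.Agent.R327

open Finset MvPolynomial Crest.ArithCircuit Real
open scoped Classical

theorem homog_multiset_prod {ι K α : Type*} [CommSemiring K] (s : Multiset α)
    (f : α → MvPolynomial ι K) (d : α → ℕ) (h : ∀ a ∈ s, (f a).IsHomogeneous (d a)) :
    ((s.map f).prod).IsHomogeneous (s.map d).sum := by
  induction s using Multiset.induction_on with
  | empty => simpa using isHomogeneous_one ι K
  | cons a s ih =>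
    rw [Multiset.map_cons, Multiset.prod_cons, Multiset.map_cons, Multiset.sum_cons]
    exact (h a (Multiset.mem_cons_self _ _)).mul (ih fun b hb => h b (Multiset.mem_cons_of_mem hb))

section
variable {K ι L B P S R : Type*} [CommSemiring K] (C : SPSPS K ι L B P S R)

theorem homog_smul {φ : MvPolynomial ι K} {n : ℕ} (c : K) (h : φ.IsHomogeneous n) :
    (c • φ).IsHomogeneous n := (homogeneousSubmodule ι K n).smul_mem c h

theorem homog_leaf (l : L) : (C.leafVal l).IsHomogeneous (C.leafDeg l) := by
  unfold SPSPS.leafVal SPSPS.leafDeg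
  cases C.leaf l with
  | inl x => exact isHomogeneous_X K x
  | inr c => exact isHomogeneous_C ι c

theorem degB_le (b : B) : C.degB b ≤ 1 := by
  refine Finset.sup_le fun l _ => ?_
  unfold SPSPS.leafDeg
  cases C.leaf l <;> simp

variable {C}

theorem homog_B (hC : C.IsHomogeneous) (b : B) : (C.valB b).IsHomogeneous (C.degB b) :=
  IsHomogeneous.sum _ _ _ fun l hl => homog_smul _ (hC.1 b l hl ▸ homog_leaf C l)

theorem homog_P (hC : C.IsHomogeneous) (p : P) : (C.valP p).IsHomogeneous (C.degP p) :=
  homog_multiset_prod _ _ _ fun b _ => homog_B hC b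

theorem homog_S (hC : C.IsHomogeneous) (s : S) : (C.valS s).IsHomogeneous (C.degS s) :=
  IsHomogeneous.sum _ _ _ fun p hp => homog_smul _ (hC.2.1 s p hp ▸ homog_P hC p)

theorem homog_R (hC : C.IsHomogeneous) (r : R) : (C.valR r).IsHomogeneous (C.degR r) :=
  homog_multiset_prod _ _ _ fun s _ => homog_S hC s

theorem homog_out (hC : C.IsHomogeneous) : C.output.IsHomogeneous C.degOut :=
  IsHomogeneous.sum _ _ _ fun r hr => homog_smul _ (hC.2.2 r hr ▸ homog_R hC r)

end

theorem mu_valR_le {K σ Lf B P S R : Type*} [Field K] [Fintype σ] [DecidableEq σ] [Fintype P]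
    (Y : σ → Prop) [DecidablePred Y] {C : SPSPS K σ Lf B P S R} (hC : C.IsHomogeneous)
    {L : ℝ} (hL : 192 ≤ L) {l₁ l₂ : ℕ} (a b : ℕ)
    (h₁ : IsTop σ (uu L ^ 2) l₁) (h₂ : IsTop σ (vv L ^ 2) l₂) (r : R)
    (hr : (C.degR r : ℝ) = exp L) {T : ℝ} (hT1 : 1 ≤ T) (hTP : (Fintype.card P : ℝ) ≤ T) :
    mu Y l₁ l₂ a b (C.valR r) ≤ T * (((lev σ l₁).card * (lev σ l₂).card * uu L ^ a * vv L ^ b) *
      ((exp L + 1) * exp (-(exp (L / 2) * (L / 32))))) := by
  have hu := uu_pos L
  have hv := vv_pos L
  have hF : (0 : ℝ) ≤ (lev σ l₁).card * (lev σ l₂).card * uu L ^ a * vv L ^ b := by positivity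
  by_cases hlow : ∀ s ∈ C.inR r, (C.degS s : ℝ) ≤ exp (L / 2)
  · have h := mu_prod Y (a := a) (b := b) hu hv h₁ h₂
      ((C.inR r).map fun s => (C.valS s, C.degS s)) (by
        intro p hp
        obtain ⟨s, _, rfl⟩ := Multiset.mem_map.mp hp
        exact homog_S hC s)
    rw [Multiset.map_map, Multiset.map_map] at h
    refine le_trans h ?_
    have h3 := prod_le_exp (C.inR r) (fun s => sig (uu L) (vv L) (C.degS s)) C.degS (kap L / 4)
      (fun s _ => sig_nonneg hu hv _) (fun s hs => sig_le hL _ (hlow s hs))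
    have h4 : (((C.inR r).map C.degS).sum : ℕ) * (kap L / 4) = exp (L / 2) * (L / 32) := by
      have h5 : (((C.inR r).map C.degS).sum : ℕ) = exp L := hr
      have h6 : exp L = exp (L / 2) * exp (L / 2) := by rw [← exp_add]; congr 1; ring
      rw [h5, h6]
      have := kap_mul L
      calc exp (L / 2) * exp (L / 2) * (kap L / 4) = exp (L / 2) * (exp (L / 2) * kap L) / 4 := by
            ring
        _ = _ := by rw [this]; ring
    rw [h4] at h3
    refine le_trans (mul_le_mul_of_nonneg_left h3 hF) ?_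
    refine le_trans ?_ (le_mul_of_one_le_left (by positivity) hT1)
    refine mul_le_mul_of_nonneg_left (le_mul_of_one_le_left (by positivity) ?_) hF
    linarith [exp_pos L]
  · push Not at hlow
    obtain ⟨s, hs, hdeg⟩ := hlow
    obtain ⟨t, ht⟩ := Multiset.exists_cons_of_mem hs
    have hQ : ((t.map C.valS).prod).IsHomogeneous (t.map C.degS).sum :=
      homog_multiset_prod _ _ _ fun s _ => homog_S hC s
    have hd : (((t.map C.degS).sum : ℕ) : ℝ) ≤ exp L := by
      rw [← hr, SPSPS.degR, ht, Multiset.map_cons, Multiset.sum_cons]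
      exact_mod_cast Nat.le_add_left _ _
    have hval : C.valR r = ∑ p ∈ C.inS s, C.coefS s p • ((t.map C.valS).prod * C.valP p) := by
      rw [SPSPS.valR, ht, Multiset.map_cons, Multiset.prod_cons, SPSPS.valS, Finset.sum_mul]
      refine Finset.sum_congr rfl fun p _ => ?_
      rw [smul_mul_assoc, mul_comm]
    rw [hval]
    refine le_trans (mu_sum_le Y _ _ _ _ _ _) ?_
    refine le_trans (Finset.sum_le_card_nsmul _ _
      (((lev σ l₁).card * (lev σ l₂).card * uu L ^ a * vv L ^ b) *
      ((exp L + 1) * exp (-(exp (L / 2) * (L / 32))))) fun p hp => ?_) ?_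
    · refine le_trans (mu_smul_le Y _ _ _ _ _ _) ?_
      have h := mu_prod Y (a := a) (b := b) hu hv h₁ h₂
        (((t.map C.valS).prod, (t.map C.degS).sum) ::ₘ
          (C.inP p).map fun b => (C.valB b, C.degB b)) (by
          intro q hq
          rcases Multiset.mem_cons.mp hq with rfl | hq
          · exact hQ
          · obtain ⟨b, _, rfl⟩ := Multiset.mem_map.mp hq
            exact homog_B hC b)
      rw [Multiset.map_cons, Multiset.map_cons, Multiset.prod_cons, Multiset.prod_cons,
        Multiset.map_map, Multiset.map_map] at h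
      refine le_trans h (mul_le_mul_of_nonneg_left ?_ hF)
      have h3 := prod_le_exp (C.inP p) (fun b => sig (uu L) (vv L) (C.degB b)) C.degB (L / 32)
        (fun s _ => sig_nonneg hu hv _) (fun b _ => sig_le_one hL _ (degB_le C b))
      have h4 : ((C.inP p).map C.degB).sum = C.degS s := hC.2.1 s p hp
      rw [h4] at h3
      refine mul_le_mul (le_trans (sig_le_succ hu hv _) (by linarith))
        (le_trans h3 (exp_le_exp.mpr ?_)) ?_ (by positivity)
      · nlinarith
      · exact Multiset.prod_nonneg (by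
          intro x hx
          obtain ⟨b, _, rfl⟩ := Multiset.mem_map.mp hx
          exact sig_nonneg hu hv _)
    · rw [nsmul_eq_mul]
      refine mul_le_mul_of_nonneg_right (le_trans ?_ hTP) (by positivity)
      exact_mod_cast Finset.card_le_univ _

theorem size_lower (k : ℕ) (K : Type*) [Field K] [CharZero K] {Lf B P S R : Type*} [Fintype Lf]
    [Fintype B] [Fintype P] [Fintype S] [Fintype R] (C : SPSPS K (Vr k) Lf B P S R)
    (hC : C.IsHomogeneous) (hout : C.output = imm K (k + 1)) {L : ℝ} (hL : 192 ≤ L)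
    (hk : ((k + 1 : ℕ) : ℝ) = exp L) : exp (L * (exp (L / 2) / 400)) ≤ C.size := by
  have hu := uu_pos L
  have hv := vv_pos L
  have hv1 := one_lt_vv hL
  have huv := vv_le_uu hL
  obtain ⟨l₁, h₁⟩ := exists_isTop (σ := Vr k) (uu L ^ 2) (by nlinarith)
  obtain ⟨l₂, h₂⟩ := exists_isTop (σ := Vr k) (vv L ^ 2) (by nlinarith)
  obtain ⟨word, hg⟩ := exists_word k hv1.le huv
  have hlow := mu_imm_ge word l₁ l₂ K (by positivity) (by positivity) (by positivity)
    (by positivity) h₁ h₂ hg
  have hdeg : C.degOut = k + 1 :=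
    (homog_out hC).inj_right (hout ▸ imm_homog K k) (hout ▸ imm_ne_zero K k)
  have hT1 : (1 : ℝ) ≤ C.size := by
    have : 1 ≤ C.size := by unfold SPSPS.size; omega
    exact_mod_cast this
  have hTP : (Fintype.card P : ℝ) ≤ C.size := by
    have : Fintype.card P ≤ C.size := by unfold SPSPS.size; omega
    exact_mod_cast this
  have hTR : (C.inOut.card : ℝ) ≤ C.size := by
    have h1 : C.inOut.card ≤ Fintype.card R := Finset.card_le_univ _
    have : C.inOut.card ≤ C.size := by unfold SPSPS.size; omega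
    exact_mod_cast this
  have hD : (0 : ℝ) < ((lev (Vr k) l₁).card : ℝ) * (lev (Vr k) l₂).card := by
    have := card_lev_pos (σ := Vr k) l₁
    have := card_lev_pos (σ := Vr k) l₂
    positivity
  have hup : mu (Yw word) l₁ l₂ (na word) (nb word) (imm K (k + 1)) ≤
      C.size * (C.size * (((lev (Vr k) l₁).card * (lev (Vr k) l₂).card * uu L ^ na word *
        vv L ^ nb word) * ((exp L + 1) * exp (-(exp (L / 2) * (L / 32)))))) := by
    rw [← hout, SPSPS.output]
    refine le_trans (mu_sum_le _ _ _ _ _ _ _) ?_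
    refine le_trans (Finset.sum_le_card_nsmul _ _ _ fun r hr => le_trans (mu_smul_le _ _ _ _ _ _ _)
      (mu_valR_le (Yw word) hC hL _ _ h₁ h₂ r (by rw [hC.2.2 r hr, hdeg, hk]) hT1 hTP)) ?_
    rw [nsmul_eq_mul]
    exact mul_le_mul_of_nonneg_right hTR (by positivity)
  refine final_num hL k hk (by positivity) ?_
  rw [← hk] at hup
  have hF : (0 : ℝ) < (lev (Vr k) l₁).card * (lev (Vr k) l₂).card * uu L ^ na word *
      vv L ^ nb word := by positivity
  refine le_of_mul_le_mul_left ?_ hF
  refine le_trans (le_of_eq ?_) (le_trans hlow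
    (le_trans (mul_le_mul_of_nonneg_right hup (by positivity)) (le_of_eq ?_)))
  · ring
  · ring

end Crest.Agent.R327
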