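import Mathlib
import Crest.Prelude.Def_SPSPS

set_option autoImplicit false

namespace Crest.Agent.R327

open Finset MvPolynomial

/-- the vertex at which step `t` of the path starts -/
def src {ι : Type*} {k : ℕ} (i : ι) (p : Fin k → ι) : Fin (k + 1) → ι := Fin.cons i p
/-- the vertex at which step `t` of the path ends -/
def tgt {ι : Type*} {k : ℕ} (j : ι) (p : Fin k → ι) : Fin (k + 1) → ι := Fin.snoc p j

@[simp] theorem src_succ {ι : Type*} {k : ℕ} (i : ι) (p : Fin k → ι) (t : Fin k) :
    src i p t.succ = p t := by simp [src]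
@[simp] theorem src_zero {ι : Type*} {k : ℕ} (i : ι) (p : Fin k → ι) : src i p 0 = i := by
  simp [src]
@[simp] theorem tgt_castSucc {ι : Type*} {k : ℕ} (j : ι) (p : Fin k → ι) (t : Fin k) :
    tgt j p t.castSucc = p t := by simp [tgt]

theorem list_prod_apply {R ι : Type*} [CommSemiring R] [Fintype ι] [DecidableEq ι] :
    ∀ (k : ℕ) (M : Fin (k + 1) → Matrix ι ι R) (i j : ι),
      (List.ofFn M).prod i j = ∑ p : Fin k → ι, ∏ t, M t (src i p t) (tgt j p t)
  | 0, M, i, j => by
    simp [src, tgt, Fin.snoc]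
  | k + 1, M, i, j => by
    rw [List.ofFn_succ, List.prod_cons, Matrix.mul_apply]
    rw [← (Fin.consEquiv (fun _ : Fin (k + 1) => ι)).sum_comp, Fintype.sum_prod_type]
    refine Finset.sum_congr rfl fun x _ => ?_
    rw [list_prod_apply k (fun t => M t.succ) x j, Finset.mul_sum]
    refine Finset.sum_congr rfl fun p _ => ?_
    rw [Fin.prod_univ_succ (fun t => M t (src i _ t) (tgt j _ t))]
    have h : tgt j (Fin.consEquiv (fun _ : Fin (k + 1) => ι) (x, p)) =
        (Fin.cons x (tgt j p) : Fin (k + 2) → ι) := by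
      simp [tgt, Fin.consEquiv, Fin.cons_snoc_eq_snoc_cons]
    rw [h]
    simp [src, Fin.consEquiv]

/-- the variable read by step `t` of the path -/
def var {k : ℕ} (p : Fin k → Fin (k + 1)) (t : Fin (k + 1)) :
    Fin (k + 1) × Fin (k + 1) × Fin (k + 1) := (t, src 0 p t, tgt 0 p t)

/-- the monomial of a path -/
noncomputable def wp {k : ℕ} (p : Fin k → Fin (k + 1)) :
    (Fin (k + 1) × Fin (k + 1) × Fin (k + 1)) →₀ ℕ := ∑ t, Finsupp.single (var p t) 1

theorem wp_apply {k : ℕ} (p : Fin k → Fin (k + 1)) (x : Fin (k + 1) × Fin (k + 1) × Fin (k + 1)) :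
    wp p x = if x = var p x.1 then 1 else 0 := by
  simp only [wp, Finsupp.coe_finsetSum, Finset.sum_apply, Finsupp.single_apply]
  rw [Finset.sum_eq_single x.1]
  · simp only [eq_comm]
  · intro t _ ht
    rw [if_neg]
    rintro rfl
    exact ht rfl
  · simp

theorem wp_var {k : ℕ} (p q : Fin k → Fin (k + 1)) (t : Fin (k + 1)) :
    wp p (var q t) = if var q t = var p t then 1 else 0 := by
  rw [wp_apply]; rfl

theorem wp_injective {k : ℕ} : Function.Injective (wp (k := k)) := by
  intro p q h
  funext t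
  have h1 := wp_var p q t.castSucc
  rw [h, wp_var, if_pos rfl] at h1
  by_cases h2 : var q t.castSucc = var p t.castSucc
  · have := congrArg (fun x => x.2.2) h2
    simpa [var] using this.symm
  · rw [if_neg h2] at h1; exact absurd h1 one_ne_zero

theorem imm_eq (K : Type*) [CommSemiring K] (k : ℕ) :
    Crest.ArithCircuit.imm K (k + 1) = ∑ p : Fin k → Fin (k + 1), monomial (wp p) (1 : K) := by
  rw [Crest.ArithCircuit.imm, list_prod_apply]
  refine Finset.sum_congr rfl fun p _ => ?_
  rw [wp, monomial_sum_one]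
  rfl

theorem imm_homog (K : Type*) [CommSemiring K] (k : ℕ) :
    (Crest.ArithCircuit.imm K (k + 1)).IsHomogeneous (k + 1) := by
  rw [imm_eq]
  refine IsHomogeneous.sum _ _ _ fun p _ => isHomogeneous_monomial _ ?_
  simp [wp, map_sum]

theorem imm_ne_zero (K : Type*) [CommSemiring K] [Nontrivial K] (k : ℕ) :
    Crest.ArithCircuit.imm K (k + 1) ≠ 0 := by
  intro h
  have := congrArg (coeff (wp (fun _ : Fin k => (0 : Fin (k + 1))))) h
  rw [imm_eq, coeff_sum, Finset.sum_eq_single (fun _ => 0)] at this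
  · simp at this
  · intro p _ hp
    rw [coeff_monomial, if_neg]
    exact fun h => hp (wp_injective h)
  · simp

end Crest.Agent.R327
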