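import Crest.Agent.R327.Measure
import Crest.Agent.R327.Paths

set_option autoImplicit false

namespace Crest.Agent.R327

open Finset MvPolynomial Matrix
open scoped Classical

/-- the variable type -/
abbrev Vr (k : ℕ) : Type := Fin (k + 1) × Fin (k + 1) × Fin (k + 1)
/-- the path type -/
abbrev Pth (k : ℕ) : Type := Fin k → Fin (k + 1)

variable {k : ℕ} (word : Fin (k + 1) → Bool)

/-- the lowering variables -/
def Yw (x : Vr k) : Prop := word x.1 = true

instance : DecidablePred (Yw word) := fun x => inferInstanceAs (Decidable (word x.1 = true))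

/-- number of lowering layers -/
def na : ℕ := (Finset.univ.filter (fun t => word t = true)).card
/-- number of raising layers -/
def nb : ℕ := (Finset.univ.filter (fun t => ¬ word t = true)).card

theorem deg_yp_wp (p : Pth k) : (yp (Yw word) (wp p)).degree = na word := by
  have : yp (Yw word) (wp p) =
      ∑ t ∈ Finset.univ.filter (fun t => word t = true), Finsupp.single (var p t) 1 := by
    rw [yp, wp, Finsupp.filter_sum, Finset.sum_filter]
    refine Finset.sum_congr rfl fun t _ => ?_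
    split_ifs with h
    · exact Finsupp.filter_single_of_pos _ h
    · exact Finsupp.filter_single_of_neg _ h
  rw [this, map_sum]; simp [na]

theorem deg_zp_wp (p : Pth k) : (zp (Yw word) (wp p)).degree = nb word := by
  have : zp (Yw word) (wp p) =
      ∑ t ∈ Finset.univ.filter (fun t => ¬ word t = true), Finsupp.single (var p t) 1 := by
    rw [zp, wp, Finsupp.filter_sum, Finset.sum_filter]
    refine Finset.sum_congr rfl fun t _ => ?_
    split_ifs with h
    · exact Finsupp.filter_single_of_neg _ (not_not.mpr h)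
    · exact Finsupp.filter_single_of_pos _ h
  rw [this, map_sum]; simp [nb]

variable (l₁ l₂ : ℕ)

/-- the `0/1` matrix of one path -/
noncomputable def Bm (R : Type*) [Semiring R] (p : Pth k) :
    Matrix (St (Vr k) l₁ (l₂ + nb word)) (St (Vr k) (l₁ + na word) l₂) R :=
  Matrix.of fun s' s => if rel (Yw word) (wp p) s'.val s.val then 1 else 0

theorem mat_imm (K : Type*) [Field K] :
    mat (Yw word) K l₁ (l₂ + nb word) (l₁ + na word) l₂ (Crest.ArithCircuit.imm K (k + 1)) =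
      ∑ p : Pth k, Bm word l₁ l₂ K p := by
  rw [imm_eq, map_sum]
  refine Finset.sum_congr rfl fun p _ => ?_
  ext s' s
  rw [mat_apply, kerL_monomial]
  rfl

theorem mu_imm_eq (K : Type*) [Field K] [CharZero K] :
    mu (Yw word) l₁ l₂ (na word) (nb word) (Crest.ArithCircuit.imm K (k + 1)) =
      ((∑ p : Pth k, Bm word l₁ l₂ ℝ p).rank : ℝ) := by
  have h : ∀ (F : Type _) [Field F] [CharZero F], (∑ p : Pth k, Bm word l₁ l₂ F p) =
      (∑ p : Pth k, Bm word l₁ l₂ ℚ p).map (algebraMap ℚ F) := by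
    intro F _ _
    ext s' s
    simp [Bm, Matrix.sum_apply]
  have h' : (∑ p : Pth k, Bm word l₁ l₂ ℝ p) =
      (∑ p : Pth k, Bm word l₁ l₂ ℚ p).map (algebraMap ℚ ℝ) := by
    ext s' s
    simp [Bm, Matrix.sum_apply]
  unfold mu
  rw [mat_imm, h K, h', rank_map_algebraMap, rank_map_algebraMap]

theorem Bm_nonneg (p : Pth k) (s' : St (Vr k) l₁ (l₂ + nb word)) (s : St (Vr k) (l₁ + na word) l₂) :
    0 ≤ Bm word l₁ l₂ ℝ p s' s := by
  simp only [Bm, Matrix.of_apply]; split_ifs <;> norm_num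

theorem trace_two_nonneg (p q : Pth k) :
    0 ≤ ((Bm word l₁ l₂ ℝ p)ᵀ * Bm word l₁ l₂ ℝ q).trace := by
  simp only [Matrix.trace, Matrix.diag, Matrix.mul_apply, Matrix.transpose_apply]
  exact Finset.sum_nonneg fun _ _ => Finset.sum_nonneg fun _ _ =>
    mul_nonneg (Bm_nonneg _ _ _ _ _ _) (Bm_nonneg _ _ _ _ _ _)

theorem trace_two_self (p : Pth k) :
    ((lev (Vr k) l₁).card : ℝ) * (lev (Vr k) l₂).card ≤
      ((Bm word l₁ l₂ ℝ p)ᵀ * Bm word l₁ l₂ ℝ p).trace := by
  simp only [Matrix.trace, Matrix.diag, Matrix.mul_apply, Matrix.transpose_apply, Bm,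
    Matrix.of_apply, mul_ite, mul_one, mul_zero, ← ite_and, and_self]
  rw [← Fintype.sum_prod_type', Finset.sum_boole]
  have hc : (lev (Vr k) l₁).card * (lev (Vr k) l₂).card = Fintype.card (St (Vr k) l₁ l₂) := by simp
  rw [← Nat.cast_mul, hc, ← Finset.card_univ, Nat.cast_le]
  have hd1 : ∀ x : St (Vr k) l₁ l₂, x.1.1 + yp (Yw word) (wp p) ∈ lev (Vr k) (l₁ + na word) := by
    intro x
    rw [mem_lev, map_add, mem_lev.mp x.1.2, deg_yp_wp]
  have hd2 : ∀ x : St (Vr k) l₁ l₂, x.2.1 + zp (Yw word) (wp p) ∈ lev (Vr k) (l₂ + nb word) := by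
    intro x
    rw [mem_lev, map_add, mem_lev.mp x.2.2, deg_zp_wp]
  refine Finset.card_le_card_of_injOn
    (fun x => ((⟨_, hd1 x⟩, x.2), (x.1, ⟨_, hd2 x⟩))) ?_ ?_
  · intro x _
    simp [rel, St.val]
  · intro x _ x' _ h
    simp only [Prod.mk.injEq] at h
    exact Prod.ext h.2.1 h.1.2

theorem T1_ge :
    ((k + 1 : ℕ) : ℝ) ^ k * (((lev (Vr k) l₁).card : ℝ) * (lev (Vr k) l₂).card) ≤
      ((∑ p : Pth k, Bm word l₁ l₂ ℝ p)ᵀ * (∑ p : Pth k, Bm word l₁ l₂ ℝ p)).trace := by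
  rw [Matrix.transpose_sum, Matrix.sum_mul, Matrix.trace_sum]
  calc ((k + 1 : ℕ) : ℝ) ^ k * (((lev (Vr k) l₁).card : ℝ) * (lev (Vr k) l₂).card)
      = ∑ _p : Pth k, (((lev (Vr k) l₁).card : ℝ) * (lev (Vr k) l₂).card) := by simp
    _ ≤ _ := by
      refine Finset.sum_le_sum fun p _ => ?_
      rw [Matrix.mul_sum, Matrix.trace_sum]
      refine le_trans (trace_two_self word l₁ l₂ p) ?_
      exact Finset.single_le_sum (f := fun q => ((Bm word l₁ l₂ ℝ p)ᵀ * Bm word l₁ l₂ ℝ q).trace)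
        (fun q _ => trace_two_nonneg word l₁ l₂ p q) (Finset.mem_univ p)

/-- the closed walks of length four with given labels -/
noncomputable def walks (p₁ p₂ p₃ p₄ : Pth k) :
    Finset ((St (Vr k) (l₁ + na word) l₂ × St (Vr k) (l₁ + na word) l₂) ×
      (St (Vr k) l₁ (l₂ + nb word) × St (Vr k) l₁ (l₂ + nb word))) :=
  Finset.univ.filter fun w => (rel (Yw word) (wp p₁) w.2.1.val w.1.1.val ∧
    rel (Yw word) (wp p₂) w.2.1.val w.1.2.val) ∧ (rel (Yw word) (wp p₃) w.2.2.val w.1.2.val ∧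
    rel (Yw word) (wp p₄) w.2.2.val w.1.1.val)

theorem trace_four (p₁ p₂ p₃ p₄ : Pth k) :
    (((Bm word l₁ l₂ ℝ p₁)ᵀ * Bm word l₁ l₂ ℝ p₂) *
      ((Bm word l₁ l₂ ℝ p₃)ᵀ * Bm word l₁ l₂ ℝ p₄)).trace = (walks word l₁ l₂ p₁ p₂ p₃ p₄).card := by
  rw [walks, ← Finset.sum_boole, Fintype.sum_prod_type, Fintype.sum_prod_type]
  simp only [Matrix.trace, Matrix.diag, Matrix.mul_apply, Matrix.transpose_apply, Bm,
    Matrix.of_apply]
  refine Finset.sum_congr rfl fun x₀ _ => Finset.sum_congr rfl fun x₁ _ => ?_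
  rw [Finset.sum_mul_sum]
  refine Eq.trans ?_ (Fintype.sum_prod_type _).symm
  refine Finset.sum_congr rfl fun y₀ _ => Finset.sum_congr rfl fun y₁ _ => ?_
  simp only [mul_ite, mul_one, mul_zero, ← ite_and]
  congr 1
  exact propext (by tauto)

theorem walks_sum {p₁ p₂ p₃ p₄ : Pth k} (h : (walks word l₁ l₂ p₁ p₂ p₃ p₄).Nonempty) :
    wp p₁ + wp p₃ = wp p₂ + wp p₄ := by
  obtain ⟨w, hw⟩ := h
  simp only [walks, Finset.mem_filter, Finset.mem_univ, true_and, rel] at hw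
  obtain ⟨⟨⟨h1, h1'⟩, ⟨h2, h2'⟩⟩, ⟨⟨h3, h3'⟩, ⟨h4, h4'⟩⟩⟩ := hw
  rw [← yp_add_zp (Yw word) (wp p₁), ← yp_add_zp (Yw word) (wp p₂), ← yp_add_zp (Yw word) (wp p₃),
    ← yp_add_zp (Yw word) (wp p₄)]
  ext x
  have e1 := congrArg (fun f => f x) h1
  have e2 := congrArg (fun f => f x) h2
  have e3 := congrArg (fun f => f x) h3
  have e4 := congrArg (fun f => f x) h4
  have e1' := congrArg (fun f => f x) h1'
  have e2' := congrArg (fun f => f x) h2'
  have e3' := congrArg (fun f => f x) h3'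
  have e4' := congrArg (fun f => f x) h4'
  simp only [Finsupp.add_apply] at *
  omega

theorem var_injective (p : Pth k) : Function.Injective (var p) := fun _ _ h => congrArg Prod.fst h

theorem walks_card_le {u v : ℝ} (hu : 0 < u) (hv : 0 < v) (h₁ : IsTop (Vr k) u l₁)
    (h₂ : IsTop (Vr k) v l₂) (p₁ p₂ p₃ p₄ : Pth k) :
    ((walks word l₁ l₂ p₁ p₂ p₃ p₄).card : ℝ) ≤
      (((lev (Vr k) l₁).card : ℝ) * (lev (Vr k) l₂).card) *
      (u⁻¹ ^ (Finset.univ.filter (fun t => word t = true ∧ var p₂ t ≠ var p₃ t)).card *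
        v⁻¹ ^ (Finset.univ.filter (fun t => ¬ word t = true ∧ var p₂ t ≠ var p₁ t)).card) := by
  set I := Finset.univ.filter (fun t => word t = true ∧ var p₂ t ≠ var p₃ t) with hI
  set J := Finset.univ.filter (fun t => ¬ word t = true ∧ var p₂ t ≠ var p₁ t) with hJ
  have e₁ := h₁.card_div hu (I.image (var p₃))
  have e₂ := h₂.card_div hv (J.image (var p₂))
  rw [Finset.card_image_of_injective _ (var_injective _)] at e₁ e₂
  have hc : (walks word l₁ l₂ p₁ p₂ p₃ p₄).card ≤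
      (((lev (Vr k) l₁).filter (fun m => ∀ x ∈ I.image (var p₃), 1 ≤ m x)) ×ˢ
      ((lev (Vr k) l₂).filter (fun m => ∀ x ∈ J.image (var p₂), 1 ≤ m x))).card := by
    refine Finset.card_le_card_of_injOn (fun w => (w.2.1.val.1, w.1.1.val.2)) ?_ ?_
    · intro w hw
      simp only [walks, Finset.coe_filter, Finset.mem_univ, true_and, rel, Set.mem_ofPred_eq] at hw
      obtain ⟨⟨⟨h1, h1'⟩, ⟨h2, h2'⟩⟩, ⟨⟨h3, h3'⟩, ⟨h4, h4'⟩⟩⟩ := hw
      simp only [Finset.coe_product, Set.mem_prod, Finset.mem_coe, Finset.mem_filter]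
      refine ⟨⟨w.2.1.1.2, ?_⟩, ⟨w.1.1.2.2, ?_⟩⟩
      · intro x hx
        obtain ⟨t, ht, rfl⟩ := Finset.mem_image.mp hx
        simp only [hI, Finset.mem_filter, Finset.mem_univ, true_and] at ht
        have e2 := congrArg (fun f => f (var p₃ t)) h2
        have e3 := congrArg (fun f => f (var p₃ t)) h3
        have hY : Yw word (var p₃ t) := ht.1
        simp only [Finsupp.add_apply, yp_apply, if_pos hY, wp_var, if_neg ht.2.symm,
          if_true] at e2 e3
        omega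
      · intro x hx
        obtain ⟨t, ht, rfl⟩ := Finset.mem_image.mp hx
        simp only [hJ, Finset.mem_filter, Finset.mem_univ, true_and] at ht
        have e1 := congrArg (fun f => f (var p₂ t)) h1'
        have e2 := congrArg (fun f => f (var p₂ t)) h2'
        have hY : ¬ Yw word (var p₂ t) := ht.1
        simp only [Finsupp.add_apply, zp_apply, if_neg hY, wp_var, if_neg ht.2,
          if_true] at e1 e2
        omega
    · intro w hw w' hw' h
      simp only [walks, Finset.coe_filter, Finset.mem_univ, true_and, rel, Set.mem_ofPred_eq,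
        St.val] at hw hw' h
      obtain ⟨⟨⟨h1, h1'⟩, ⟨h2, h2'⟩⟩, ⟨⟨h3, h3'⟩, ⟨h4, h4'⟩⟩⟩ := hw
      obtain ⟨⟨⟨g1, g1'⟩, ⟨g2, g2'⟩⟩, ⟨⟨g3, g3'⟩, ⟨g4, g4'⟩⟩⟩ := hw'
      rw [Prod.mk.injEq] at h
      obtain ⟨ha, hb⟩ := h
      have a1 : w.1.1.1.1 = w'.1.1.1.1 := by rw [← h1, ← g1, ha]
      have a2 : w.1.2.1.1 = w'.1.2.1.1 := by rw [← h2, ← g2, ha]
      have a3 : w.2.1.2.1 = w'.2.1.2.1 := by rw [h1', g1', hb]
      have a4 : w.1.2.2.1 = w'.1.2.2.1 := by
        apply add_right_cancel (b := zp (Yw word) (wp p₂))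
        rw [← h2', ← g2', a3]
      have a5 : w.2.2.1.1 = w'.2.2.1.1 := by
        apply add_right_cancel (b := yp (Yw word) (wp p₄))
        rw [h4, g4, a1]
      have a6 : w.2.2.2.1 = w'.2.2.2.1 := by rw [h4', g4', hb]
      exact Prod.ext (Prod.ext (Prod.ext (Subtype.ext a1) (Subtype.ext hb))
        (Prod.ext (Subtype.ext a2) (Subtype.ext a4)))
        (Prod.ext (Prod.ext (Subtype.ext ha) (Subtype.ext a3))
        (Prod.ext (Subtype.ext a5) (Subtype.ext a6)))
  rw [Finset.card_product] at hc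
  have hc' : ((walks word l₁ l₂ p₁ p₂ p₃ p₄).card : ℝ) ≤
      (((lev (Vr k) l₁).filter (fun m => ∀ x ∈ I.image (var p₃), 1 ≤ m x)).card : ℝ) *
      (((lev (Vr k) l₂).filter (fun m => ∀ x ∈ J.image (var p₂), 1 ≤ m x)).card : ℝ) := by
    exact_mod_cast hc
  refine le_trans hc' ?_
  rw [← le_div_iff₀ (by positivity)] at e₁ e₂
  calc _ ≤ (((lev (Vr k) l₁).card : ℝ) / u ^ I.card) * (((lev (Vr k) l₂).card : ℝ) / v ^ J.card) := by
        gcongr
    _ = _ := by
        rw [inv_pow, inv_pow]; field_simp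

/-- the type of each step of the middle path -/
noncomputable def ctype (p₁ p₂ p₃ : Pth k) (t : Fin (k + 1)) : Bool :=
  if word t = true then decide (var p₂ t = var p₃ t) else decide (var p₂ t ≠ var p₁ t)

/-- the weight of a step of given type -/
noncomputable def om (y z : ℝ) (w c : Bool) : ℝ :=
  if w = true then (if c = true then 1 else y⁻¹) else (if c = true then z⁻¹ else 1)

theorem prod_om (y z : ℝ) (p₁ p₂ p₃ : Pth k) :
    (y⁻¹ ^ (Finset.univ.filter (fun t => word t = true ∧ var p₂ t ≠ var p₃ t)).card *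
        z⁻¹ ^ (Finset.univ.filter (fun t => ¬ word t = true ∧ var p₂ t ≠ var p₁ t)).card) =
      ∏ t, om y z (word t) (ctype word p₁ p₂ p₃ t) := by
  rw [← Finset.prod_const, ← Finset.prod_const, Finset.prod_filter, Finset.prod_filter,
    ← Finset.prod_mul_distrib]
  refine Finset.prod_congr rfl fun t _ => ?_
  unfold om ctype
  by_cases h : word t = true <;> by_cases h2 : var p₂ t = var p₃ t <;>
    by_cases h3 : var p₂ t = var p₁ t <;> simp [h, h2, h3]

/-- the middle path is a mixture of the two outer ones -/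
def Mix (p₁ p₂ p₃ : Pth k) : Prop := ∀ t, var p₂ t = var p₁ t ∨ var p₂ t = var p₃ t

theorem Mix.var_eq {p₁ p₂ p₃ : Pth k} (h : Mix p₁ p₂ p₃) (t : Fin (k + 1)) :
    var p₂ t = if ctype word p₁ p₂ p₃ t = true then var p₃ t else var p₁ t := by
  unfold ctype
  have := h t
  by_cases h1 : word t = true <;> by_cases h2 : var p₂ t = var p₃ t <;>
    by_cases h3 : var p₂ t = var p₁ t <;> simp_all

theorem Mix.left {p₁ p₂ p₃ : Pth k} (h : Mix p₁ p₂ p₃) (j : Fin k) :
    p₂ j = if ctype word p₁ p₂ p₃ j.castSucc = true then p₃ j else p₁ j := by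
  have := congrArg (fun x => x.2.2) (h.var_eq word j.castSucc)
  split_ifs at this ⊢ <;> simpa [var] using this

theorem Mix.right {p₁ p₂ p₃ : Pth k} (h : Mix p₁ p₂ p₃) (j : Fin k) :
    p₂ j = if ctype word p₁ p₂ p₃ j.succ = true then p₃ j else p₁ j := by
  have := congrArg (fun x => x.2.1) (h.var_eq word j.succ)
  split_ifs at this ⊢ <;> simpa [var] using this

theorem mix_of_sum {p₁ p₂ p₃ p₄ : Pth k} (h : wp p₁ + wp p₃ = wp p₂ + wp p₄) : Mix p₁ p₂ p₃ := by
  intro t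
  have := congrArg (fun f => f (var p₂ t)) h
  simp only [Finsupp.add_apply, wp_var, if_true] at this
  by_contra hc
  push Not at hc
  rw [if_neg hc.1, if_neg hc.2] at this
  omega

theorem om_nonneg {y z : ℝ} (hy : 0 < y) (hz : 0 < z) (w c : Bool) : 0 ≤ om y z w c := by
  unfold om; split_ifs <;> positivity

theorem sum_walks_le {y z : ℝ} (hy : 0 < y) (hz : 0 < z) (h₁ : IsTop (Vr k) y l₁)
    (h₂ : IsTop (Vr k) z l₂) (p₁ p₂ p₃ : Pth k) :
    ∑ p₄, ((walks word l₁ l₂ p₁ p₂ p₃ p₄).card : ℝ) ≤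
      if Mix p₁ p₂ p₃ then (((lev (Vr k) l₁).card : ℝ) * (lev (Vr k) l₂).card) *
        ∏ t, om y z (word t) (ctype word p₁ p₂ p₃ t) else 0 := by
  by_cases h : ∃ p₄, (walks word l₁ l₂ p₁ p₂ p₃ p₄).Nonempty
  · obtain ⟨p₄, h4⟩ := h
    have hs := walks_sum word l₁ l₂ h4
    rw [if_pos (mix_of_sum hs), Finset.sum_eq_single p₄, ← prod_om]
    · exact walks_card_le word l₁ l₂ hy hz h₁ h₂ _ _ _ _
    · intro q _ hq
      rw [Nat.cast_eq_zero, Finset.card_eq_zero]
      by_contra hne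
      have hs' := walks_sum word l₁ l₂ (Finset.nonempty_iff_ne_empty.mpr hne)
      rw [hs] at hs'
      exact hq (wp_injective (add_left_cancel hs')).symm
    · simp
  · push Not at h
    rw [Finset.sum_eq_zero (fun q _ => by rw [h q]; simp)]
    split_ifs
    · exact mul_nonneg (by positivity) (Finset.prod_nonneg fun _ _ => om_nonneg hy hz _ _)
    · exact le_rfl

theorem sum_switch (W H : ℝ) : ∀ k : ℕ,
    ∑ c : Fin (k + 1) → Bool, ∏ j : Fin k, (if c j.castSucc ≠ c j.succ then H else W) =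
      2 * (W + H) ^ k
  | 0 => by simp
  | k + 1 => by
    rw [← (Fin.consEquiv (fun _ : Fin (k + 2) => Bool)).sum_comp, Fintype.sum_prod_type,
      Finset.sum_comm, pow_succ, ← mul_assoc, ← sum_switch W H k, Finset.sum_mul]
    refine Finset.sum_congr rfl fun c _ => ?_
    simp only [Fin.prod_univ_succ (n := k), Fin.consEquiv, Equiv.coe_fn_mk, Fin.castSucc_zero,
      Fin.cons_zero, Fin.cons_succ, Fin.castSucc_succ]
    rw [← Finset.sum_mul, mul_comm]
    congr 1
    cases c 0 <;> simp [add_comm]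

theorem sum_mix_le {y z m H : ℝ} (hm : 0 < m) (hH : 0 ≤ H)
    (hg : ∀ c : Fin (k + 1) → Bool, ∏ t, om y z (word t) (c t) ≤
      m⁻¹ * ∏ j : Fin k, (if c j.castSucc ≠ c j.succ then H else 1)) (p₁ : Pth k) :
    ∑ p₂, ∑ p₃, (if Mix p₁ p₂ p₃ then ∏ t, om y z (word t) (ctype word p₁ p₂ p₃ t) else 0) ≤
      m⁻¹ * (2 * (((k + 1 : ℕ) : ℝ) + H) ^ k) := by
  rw [Finset.sum_comm]
  have h1 : ∀ p₃ : Pth k,
      ∑ p₂, (if Mix p₁ p₂ p₃ then ∏ t, om y z (word t) (ctype word p₁ p₂ p₃ t) else 0) ≤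
      ∑ c : Fin (k + 1) → Bool, m⁻¹ * ∏ j : Fin k,
        (if c j.castSucc ≠ c j.succ then (if p₃ j = p₁ j then H else 0) else 1) := by
    intro p₃
    rw [← Finset.sum_filter]
    have hinj : Set.InjOn (fun p₂ => ctype word p₁ p₂ p₃)
        (Finset.univ.filter (fun p₂ => Mix p₁ p₂ p₃) : Finset (Pth k)) := by
      intro p hp q hq h
      simp only [Finset.coe_filter, Finset.mem_univ, true_and, Set.mem_ofPred_eq] at hp hq
      funext j
      rw [hp.left word j, hq.left word j]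
      simp only at h
      rw [h]
    have hnn : ∀ c : Fin (k + 1) → Bool, 0 ≤ m⁻¹ * ∏ j : Fin k,
        (if c j.castSucc ≠ c j.succ then (if p₃ j = p₁ j then H else 0) else 1) := by
      intro c
      refine mul_nonneg (by positivity) (Finset.prod_nonneg fun j _ => ?_)
      split_ifs <;> first | exact hH | norm_num
    calc _ ≤ ∑ p₂ ∈ Finset.univ.filter (fun p₂ => Mix p₁ p₂ p₃), m⁻¹ * ∏ j : Fin k,
          (if ctype word p₁ p₂ p₃ j.castSucc ≠ ctype word p₁ p₂ p₃ j.succ then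
            (if p₃ j = p₁ j then H else 0) else 1) := by
          refine Finset.sum_le_sum fun p₂ hp₂ => le_trans (hg _) (le_of_eq ?_)
          congr 1
          refine Finset.prod_congr rfl fun j _ => ?_
          have hmix : Mix p₁ p₂ p₃ := (Finset.mem_filter.mp hp₂).2
          have hl := hmix.left word j
          have hr := hmix.right word j
          split_ifs with hs hs2
          · rfl
          · exfalso
            apply hs2
            revert hl hr hs
            cases ctype word p₁ p₂ p₃ j.castSucc <;> cases ctype word p₁ p₂ p₃ j.succ <;>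
              simp +contextual [eq_comm]
          · rfl
      _ = ∑ c ∈ (Finset.univ.filter (fun p₂ => Mix p₁ p₂ p₃)).image
            (fun p₂ => ctype word p₁ p₂ p₃), m⁻¹ * ∏ j : Fin k,
            (if c j.castSucc ≠ c j.succ then (if p₃ j = p₁ j then H else 0) else 1) := by
          rw [Finset.sum_image hinj]
      _ ≤ _ := Finset.sum_le_sum_of_subset_of_nonneg (Finset.subset_univ _) (fun c _ _ => hnn c)
  refine le_trans (Finset.sum_le_sum fun p₃ _ => h1 p₃) (le_of_eq ?_)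
  rw [Finset.sum_comm, ← sum_switch, Finset.mul_sum]
  refine Finset.sum_congr rfl fun c _ => ?_
  rw [← Finset.mul_sum]
  congr 1
  rw [← Fintype.piFinset_univ, ← Finset.prod_univ_sum (fun _ => Finset.univ)
    (fun (j : Fin k) (x : Fin (k + 1)) =>
      if c j.castSucc ≠ c j.succ then (if x = p₁ j then H else 0) else (1 : ℝ))]
  refine Finset.prod_congr rfl fun j _ => ?_
  split_ifs <;> simp

theorem T2_le {y z m H : ℝ} (hy : 0 < y) (hz : 0 < z) (hm : 0 < m) (hH : 0 ≤ H)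
    (h₁ : IsTop (Vr k) y l₁) (h₂ : IsTop (Vr k) z l₂)
    (hg : ∀ c : Fin (k + 1) → Bool, ∏ t, om y z (word t) (c t) ≤
      m⁻¹ * ∏ j : Fin k, (if c j.castSucc ≠ c j.succ then H else 1)) :
    (((∑ p : Pth k, Bm word l₁ l₂ ℝ p)ᵀ * (∑ p : Pth k, Bm word l₁ l₂ ℝ p)) *
      ((∑ p : Pth k, Bm word l₁ l₂ ℝ p)ᵀ * (∑ p : Pth k, Bm word l₁ l₂ ℝ p))).trace ≤
      ((k + 1 : ℕ) : ℝ) ^ k * ((((lev (Vr k) l₁).card : ℝ) * (lev (Vr k) l₂).card) *
        (m⁻¹ * (2 * (((k + 1 : ℕ) : ℝ) + H) ^ k))) := by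
  have h0 : (((∑ p : Pth k, Bm word l₁ l₂ ℝ p)ᵀ * (∑ p : Pth k, Bm word l₁ l₂ ℝ p)) *
      ((∑ p : Pth k, Bm word l₁ l₂ ℝ p)ᵀ * (∑ p : Pth k, Bm word l₁ l₂ ℝ p))).trace =
      ∑ p₁, ∑ p₂, ∑ p₃, ∑ p₄, ((walks word l₁ l₂ p₁ p₂ p₃ p₄).card : ℝ) := by
    have e : (∑ p : Pth k, Bm word l₁ l₂ ℝ p)ᵀ * (∑ p : Pth k, Bm word l₁ l₂ ℝ p) =
        ∑ p, ∑ q, (Bm word l₁ l₂ ℝ p)ᵀ * Bm word l₁ l₂ ℝ q := by
      rw [Matrix.transpose_sum, Matrix.sum_mul]
      exact Finset.sum_congr rfl fun p _ => Matrix.mul_sum _ _ _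
    rw [e, Matrix.sum_mul, Matrix.trace_sum]
    refine Finset.sum_congr rfl fun p₁ _ => ?_
    rw [Matrix.sum_mul, Matrix.trace_sum]
    refine Finset.sum_congr rfl fun p₂ _ => ?_
    rw [Matrix.mul_sum, Matrix.trace_sum]
    refine Finset.sum_congr rfl fun p₃ _ => ?_
    rw [Matrix.mul_sum, Matrix.trace_sum]
    exact Finset.sum_congr rfl fun p₄ _ => trace_four word l₁ l₂ _ _ _ _
  rw [h0]
  calc _ ≤ ∑ _p₁ : Pth k, ((((lev (Vr k) l₁).card : ℝ) * (lev (Vr k) l₂).card) *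
        (m⁻¹ * (2 * (((k + 1 : ℕ) : ℝ) + H) ^ k))) := by
        refine Finset.sum_le_sum fun p₁ _ => ?_
        refine le_trans ?_ (mul_le_mul_of_nonneg_left (sum_mix_le word hm hH hg p₁)
          (by positivity))
        rw [Finset.mul_sum]
        refine Finset.sum_le_sum fun p₂ _ => ?_
        rw [Finset.mul_sum]
        refine Finset.sum_le_sum fun p₃ _ => ?_
        refine le_trans (sum_walks_le word l₁ l₂ hy hz h₁ h₂ p₁ p₂ p₃) (le_of_eq ?_)
        split_ifs <;> simp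
    _ = _ := by simp

theorem mu_imm_ge (K : Type*) [Field K] [CharZero K] {y z m H : ℝ} (hy : 0 < y) (hz : 0 < z)
    (hm : 0 < m) (hH : 0 ≤ H) (h₁ : IsTop (Vr k) y l₁) (h₂ : IsTop (Vr k) z l₂)
    (hg : ∀ c : Fin (k + 1) → Bool, ∏ t, om y z (word t) (c t) ≤
      m⁻¹ * ∏ j : Fin k, (if c j.castSucc ≠ c j.succ then H else 1)) :
    ((k + 1 : ℕ) : ℝ) ^ k * (((lev (Vr k) l₁).card : ℝ) * (lev (Vr k) l₂).card) * m ≤
      mu (Yw word) l₁ l₂ (na word) (nb word) (Crest.ArithCircuit.imm K (k + 1)) *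
        (2 * (((k + 1 : ℕ) : ℝ) + H) ^ k) := by
  rw [mu_imm_eq]
  have t1 := T1_ge word l₁ l₂
  have t2 := T2_le word l₁ l₂ hy hz hm hH h₁ h₂ hg
  have t3 := trace_sq_le_rank_mul (∑ p : Pth k, Bm word l₁ l₂ ℝ p)
  have hD : (0 : ℝ) < ((lev (Vr k) l₁).card : ℝ) * (lev (Vr k) l₂).card := by
    have := card_lev_pos (σ := Vr k) l₁
    have := card_lev_pos (σ := Vr k) l₂
    positivity
  set D := ((lev (Vr k) l₁).card : ℝ) * (lev (Vr k) l₂).card
  set r : ℝ := ((∑ p : Pth k, Bm word l₁ l₂ ℝ p).rank : ℝ)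
  have hr : 0 ≤ r := Nat.cast_nonneg _
  set Wk : ℝ := ((k + 1 : ℕ) : ℝ) ^ k
  have hW : 0 < Wk := by positivity
  set S : ℝ := 2 * (((k + 1 : ℕ) : ℝ) + H) ^ k
  have t4 : (Wk * D) ^ 2 ≤ r * (Wk * (D * (m⁻¹ * S))) :=
    le_trans (pow_le_pow_left₀ (by positivity) t1 2) (le_trans t3 (mul_le_mul_of_nonneg_left t2 hr))
  have t5 : (Wk * D) * (Wk * D * m) ≤ (Wk * D) * (r * S) := by
    calc (Wk * D) * (Wk * D * m) = (Wk * D) ^ 2 * m := by ring
      _ ≤ r * (Wk * (D * (m⁻¹ * S))) * m := by gcongr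
      _ = (Wk * D) * (r * S) := by field_simp
  exact le_of_mul_le_mul_left t5 (by positivity)

end Crest.Agent.R327
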