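import Mathlib

set_option autoImplicit false

namespace Crest.Agent.R327

open Matrix

section General
variable {K : Type*} [Field K] {m n : Type*} [Fintype n]

theorem rank_add_le' (A B : Matrix m n K) [Fintype m] : (A + B).rank ≤ A.rank + B.rank := by
  unfold Matrix.rank
  rw [Matrix.mulVecLin_add]
  refine le_trans (Submodule.finrank_mono (LinearMap.range_add_le _ _)) ?_
  exact Submodule.finrank_add_le_finrank_add_finrank _ _

theorem rank_smul_le' (c : K) (A : Matrix m n K) [Fintype m] : (c • A).rank ≤ A.rank := by
  by_cases hc : c = 0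
  · simp [hc]
  · rw [Matrix.rank_smul_of_mem_nonZeroDivisors A (mem_nonZeroDivisors_of_ne_zero hc)]

theorem rank_sum_le' {ι : Type*} [Fintype m] (s : Finset ι) (A : ι → Matrix m n K) :
    (∑ i ∈ s, A i).rank ≤ ∑ i ∈ s, (A i).rank := by
  classical
  induction s using Finset.induction_on with
  | empty => simp
  | insert a s ha ih =>
    rw [Finset.sum_insert ha, Finset.sum_insert ha]
    exact le_trans (rank_add_le' _ _) (by omega)

theorem rank_map_algebraMap {F : Type*} [Field F] [Algebra F K] [Fintype m] (A : Matrix m n F) :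
    (A.map (algebraMap F K)).rank = A.rank := by
  classical
  rw [Matrix.rank_eq_finrank_span_cols, Matrix.rank_eq_finrank_span_cols]
  obtain ⟨κ, a, ha, hspan, hli⟩ := exists_linearIndependent' F A.col
  have : Finite κ := Finite.of_injective a ha
  let _ : Fintype κ := Fintype.ofFinite κ
  have h1 : Module.finrank F (Submodule.span F (Set.range A.col)) = Fintype.card κ := by
    rw [← hspan, finrank_span_eq_card hli]
  have hli' : LinearIndependent K (fun k => algebraMap F K ∘ (A.col ∘ a) k) :=
    linearIndependent_algebraMap_comp_iff.mpr hli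
  have h2 : Submodule.span K (Set.range (A.map (algebraMap F K)).col) =
      Submodule.span K (Set.range (fun k => algebraMap F K ∘ (A.col ∘ a) k)) := by
    apply le_antisymm
    · rw [Submodule.span_le]
      rintro _ ⟨j, rfl⟩
      have hj : A.col j ∈ Submodule.span F (Set.range (A.col ∘ a)) := by
        rw [hspan]; exact Submodule.subset_span ⟨j, rfl⟩
      obtain ⟨c, hc⟩ := (Submodule.mem_span_range_iff_exists_fun F).mp hj
      refine (Submodule.mem_span_range_iff_exists_fun K).mpr ⟨fun k => algebraMap F K (c k), ?_⟩
      ext i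
      have := congrFun hc i
      simp only [Finset.sum_apply, Pi.smul_apply, Function.comp_apply, smul_eq_mul,
        Matrix.col_apply, Matrix.map_apply] at this ⊢
      rw [← this, map_sum]
      simp
    · rw [Submodule.span_le]
      rintro _ ⟨k, rfl⟩
      exact Submodule.subset_span ⟨a k, rfl⟩
  rw [h1, h2, finrank_span_eq_card hli']

end General

theorem trace_sq_le_rank_mul {m n : Type*} [Fintype m] [Fintype n] [DecidableEq n]
    (A : Matrix m n ℝ) :
    (Aᵀ * A).trace ^ 2 ≤ (A.rank : ℝ) * ((Aᵀ * A) * (Aᵀ * A)).trace := by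
  classical
  set G := Aᵀ * A with hG
  have hH : G.IsHermitian := by
    have := Matrix.isHermitian_conjTranspose_mul_self A
    simpa [hG] using this
  have hr : A.rank = Fintype.card {i // hH.eigenvalues i ≠ 0} := by
    rw [← hH.rank_eq_card_non_zero_eigs, hG, Matrix.rank_transpose_mul_self]
  have ht : G.trace = ∑ i, hH.eigenvalues i := by
    simpa using hH.trace_eq_sum_eigenvalues
  have ht2 : (G * G).trace = ∑ i, hH.eigenvalues i ^ 2 := by
    have hs := hH.spectral_theorem
    set U : Matrix n n ℝ := (hH.eigenvectorUnitary : Matrix n n ℝ) with hU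
    set D : Matrix n n ℝ := Matrix.diagonal (RCLike.ofReal ∘ hH.eigenvalues) with hD
    have hs' : G = U * D * star U := by
      rw [hs]; simp [hU, hD, Unitary.conjStarAlgAut_apply]
    have hUU : star U * U = 1 := by simp [hU]
    calc (G * G).trace = (U * D * star U * (U * D * star U)).trace := by rw [← hs']
      _ = (U * (D * D) * star U).trace := by
          congr 1
          calc U * D * star U * (U * D * star U) = U * D * (star U * U) * D * star U := by
                simp only [Matrix.mul_assoc]
            _ = U * (D * D) * star U := by rw [hUU]; simp only [Matrix.mul_assoc, Matrix.one_mul]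
      _ = (D * D).trace := by
          rw [Matrix.trace_mul_cycle, hUU, Matrix.one_mul]
      _ = ∑ i, hH.eigenvalues i ^ 2 := by
          simp [hD, Matrix.diagonal_mul_diagonal, sq]
  rw [ht, ht2, hr]
  have h1 : ∑ i, hH.eigenvalues i = ∑ i ∈ Finset.univ.filter (fun i => hH.eigenvalues i ≠ 0),
      hH.eigenvalues i := by
    rw [Finset.sum_filter_ne_zero]
  have h2 : ∑ i ∈ Finset.univ.filter (fun i => hH.eigenvalues i ≠ 0), hH.eigenvalues i ^ 2
      ≤ ∑ i, hH.eigenvalues i ^ 2 :=
    Finset.sum_le_sum_of_subset_of_nonneg (Finset.filter_subset _ _) (fun _ _ _ => sq_nonneg _)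
  rw [h1, Fintype.card_subtype]
  refine le_trans sq_sum_le_card_mul_sum_sq ?_
  exact mul_le_mul_of_nonneg_left h2 (Nat.cast_nonneg _)

end Crest.Agent.R327
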