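import Crest.Agent.R327.Mon
import Crest.Agent.R327.Rank

set_option autoImplicit false

namespace Crest.Agent.R327

open Finset MvPolynomial
open scoped Classical

variable {σ : Type*} [Fintype σ] [DecidableEq σ] (Y : σ → Prop) [DecidablePred Y]

/-- the part of a monomial in the lowering variables -/
noncomputable def yp (w : σ →₀ ℕ) : σ →₀ ℕ := w.filter Y
/-- the part of a monomial in the raising variables -/
noncomputable def zp (w : σ →₀ ℕ) : σ →₀ ℕ := w.filter (fun x => ¬ Y x)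

omit [Fintype σ] [DecidableEq σ] in
theorem yp_add (w w' : σ →₀ ℕ) : yp Y (w + w') = yp Y w + yp Y w' := Finsupp.filter_add
omit [Fintype σ] [DecidableEq σ] in
theorem zp_add (w w' : σ →₀ ℕ) : zp Y (w + w') = zp Y w + zp Y w' := Finsupp.filter_add
omit [Fintype σ] [DecidableEq σ] in
theorem yp_add_zp (w : σ →₀ ℕ) : yp Y w + zp Y w = w := Finsupp.filter_add_filter_not w Y
omit [Fintype σ] [DecidableEq σ] in
theorem yp_apply (w : σ →₀ ℕ) (x : σ) : yp Y w x = if Y x then w x else 0 := Finsupp.filter_apply _ _ _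
omit [Fintype σ] [DecidableEq σ] in
theorem zp_apply (w : σ →₀ ℕ) (x : σ) : zp Y w x = if Y x then 0 else w x := by
  simp [zp, Finsupp.filter_apply]

/-- bidegree weights -/
def w2 (x : σ) : ℕ × ℕ := if Y x then (1, 0) else (0, 1)

omit [DecidableEq σ] in
theorem weight_w2 (w : σ →₀ ℕ) :
    Finsupp.weight (w2 Y) w = ((yp Y w).degree, (zp Y w).degree) := by
  rw [Finsupp.weight_eq_sum, Finsupp.degree_eq_sum, Finsupp.degree_eq_sum]
  ext
  · simp only [Prod.fst_sum, Prod.smul_fst, smul_eq_mul, yp_apply, w2]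
    refine Finset.sum_congr rfl fun x _ => ?_
    split_ifs <;> simp
  · simp only [Prod.snd_sum, Prod.smul_snd, smul_eq_mul, zp_apply, w2]
    refine Finset.sum_congr rfl fun x _ => ?_
    split_ifs <;> simp

/-- the monomial `w` carries the state `s` to the state `s'` -/
def rel (w : σ →₀ ℕ) (s' s : (σ →₀ ℕ) × (σ →₀ ℕ)) : Prop :=
  s'.1 + yp Y w = s.1 ∧ s'.2 = s.2 + zp Y w

variable (K : Type*) [Field K]

/-- the entry of the operator attached to a polynomial -/
noncomputable def kerL (s' s : (σ →₀ ℕ) × (σ →₀ ℕ)) : MvPolynomial σ K →ₗ[K] K :=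
  (basisMonomials σ K).constr K (fun w => if rel Y w s' s then 1 else 0)

omit [Fintype σ] [DecidableEq σ] in
theorem kerL_monomial (s' s : (σ →₀ ℕ) × (σ →₀ ℕ)) (w : σ →₀ ℕ) (c : K) :
    kerL Y K s' s (monomial w c) = if rel Y w s' s then c else 0 := by
  have h : (monomial w c : MvPolynomial σ K) = c • basisMonomials σ K w := by
    simp [smul_monomial]
  rw [h, map_smul, kerL, Module.Basis.constr_basis]
  simp

variable (σ) in
/-- states of bidegree `(i, j)` -/
abbrev St (i j : ℕ) : Type _ := ↥(lev σ i) × ↥(lev σ j)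

/-- the underlying pair of monomials -/
def St.val {i j : ℕ} (s : St σ i j) : (σ →₀ ℕ) × (σ →₀ ℕ) := (s.1.1, s.2.1)

/-- the block of the operator of `P` between two bidegrees -/
noncomputable def mat (i' j' i j : ℕ) : MvPolynomial σ K →ₗ[K] Matrix (St σ i' j') (St σ i j) K where
  toFun P := Matrix.of fun s' s => kerL Y K s'.val s.val P
  map_add' P Q := by ext; simp
  map_smul' c P := by ext; simp

theorem mat_apply (i' j' i j : ℕ) (P : MvPolynomial σ K) (s' : St σ i' j') (s : St σ i j) :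
    mat Y K i' j' i j P s' s = kerL Y K s'.val s.val P := rfl

variable {K}

omit [Fintype σ] [DecidableEq σ] in
theorem kerL_eq_sum (s' s : (σ →₀ ℕ) × (σ →₀ ℕ)) (P : MvPolynomial σ K) :
    kerL Y K s' s P = ∑ w ∈ P.support, if rel Y w s' s then coeff w P else 0 := by
  conv_lhs => rw [P.as_sum]
  rw [map_sum]
  simp only [kerL_monomial]

theorem mat_eq_zero {i' j' i j a b : ℕ} {P : MvPolynomial σ K}
    (hP : IsWeightedHomogeneous (w2 Y) P (a, b)) (h : ¬ (i' + a = i ∧ j' = j + b)) :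
    mat Y K i' j' i j P = 0 := by
  ext s' s
  rw [mat_apply, kerL_eq_sum, Matrix.zero_apply]
  refine Finset.sum_eq_zero fun w hw => ?_
  rw [if_neg]
  intro hr
  apply h
  have h1 := hP (mem_support_iff.mp hw)
  rw [weight_w2, Prod.mk.injEq] at h1
  have h2 := congrArg Finsupp.degree hr.1
  have h3 := congrArg Finsupp.degree hr.2
  rw [map_add] at h2 h3
  simp only [St.val] at h2 h3
  rw [mem_lev.mp s'.1.2, mem_lev.mp s.1.2, h1.1] at h2
  rw [mem_lev.mp s'.2.2, mem_lev.mp s.2.2, h1.2] at h3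
  exact ⟨h2, h3⟩

theorem mat_monomial_mul {i' j' i'' j a b : ℕ} (v u : σ →₀ ℕ) (cv cu : K)
    (hu : (yp Y u).degree = a ∧ (zp Y u).degree = b) :
    mat Y K i' j' (i'' + a) j (monomial v cv * monomial u cu) =
      mat Y K i' j' i'' (j + b) (monomial v cv) * mat Y K i'' (j + b) (i'' + a) j (monomial u cu) := by
  ext s' s
  rw [monomial_mul, Matrix.mul_apply]
  simp only [mat_apply, kerL_monomial]
  by_cases h : rel Y (v + u) s'.val s.val
  · rw [if_pos h]
    obtain ⟨h1, h2⟩ := h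
    rw [yp_add, ← add_assoc] at h1
    rw [zp_add, add_comm (zp Y v), ← add_assoc] at h2
    have hd1 : (s'.val.1 + yp Y v).degree = i'' := by
      have h3 := congrArg Finsupp.degree h1
      rw [map_add, hu.1] at h3
      have h4 : s.val.1.degree = i'' + a := mem_lev.mp s.1.2
      omega
    have hd2 : (s.val.2 + zp Y u).degree = j + b := by
      have h4 : s.val.2.degree = j := mem_lev.mp s.2.2
      rw [map_add, hu.2, h4]
    let m : St σ i'' (j + b) := (⟨_, mem_lev.mpr hd1⟩, ⟨_, mem_lev.mpr hd2⟩)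
    rw [Finset.sum_eq_single m]
    · rw [if_pos ⟨rfl, h2⟩, if_pos ⟨h1, rfl⟩]
    · intro m' _ hm'
      by_cases h5 : rel Y v s'.val m'.val
      · by_cases h6 : rel Y u m'.val s.val
        · exfalso
          apply hm'
          ext1
          · exact Subtype.ext h5.1.symm
          · exact Subtype.ext h6.2
        · rw [if_neg h6, mul_zero]
      · rw [if_neg h5, zero_mul]
    · intro h; exact absurd (Finset.mem_univ _) h
  · rw [if_neg h]
    refine (Finset.sum_eq_zero fun m _ => ?_).symm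
    by_cases h5 : rel Y v s'.val m.val
    · by_cases h6 : rel Y u m.val s.val
      · exfalso
        apply h
        constructor
        · rw [yp_add, ← add_assoc, h5.1, h6.1]
        · rw [zp_add, h5.2, h6.2]; abel
      · rw [if_neg h6, mul_zero]
    · rw [if_neg h5, zero_mul]

theorem mat_mul {i' j' i'' j a b : ℕ} (V U : MvPolynomial σ K)
    (hU : IsWeightedHomogeneous (w2 Y) U (a, b)) :
    mat Y K i' j' (i'' + a) j (V * U) =
      mat Y K i' j' i'' (j + b) V * mat Y K i'' (j + b) (i'' + a) j U := by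
  conv_lhs => rw [V.as_sum, U.as_sum]
  conv_rhs => rw [V.as_sum, U.as_sum]
  rw [Finset.sum_mul_sum, map_sum, map_sum, map_sum, Matrix.sum_mul]
  refine Finset.sum_congr rfl fun v _ => ?_
  rw [map_sum, Matrix.mul_sum]
  refine Finset.sum_congr rfl fun u hu => ?_
  apply mat_monomial_mul
  have h1 := hU (mem_support_iff.mp hu)
  rwa [weight_w2, Prod.mk.injEq] at h1

omit [DecidableEq σ] in
theorem homog_decomp {Q : MvPolynomial σ K} {e : ℕ} (hQ : Q.IsHomogeneous e) :
    Q = ∑ j ∈ Finset.range (e + 1), weightedHomogeneousComponent (w2 Y) (j, e - j) Q := by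
  ext w
  rw [coeff_sum]
  simp only [coeff_weightedHomogeneousComponent]
  by_cases hw : coeff w Q = 0
  · simp [hw]
  · have h1 : w.degree = e := by
      have := hQ hw
      rwa [Finsupp.degree_eq_weight_one]
    have h2 : (yp Y w).degree + (zp Y w).degree = e := by rw [← map_add, yp_add_zp, h1]
    rw [Finset.sum_eq_single (yp Y w).degree]
    · rw [if_pos]
      rw [weight_w2, Prod.mk.injEq]
      exact ⟨rfl, by omega⟩
    · intro j _ hj
      rw [if_neg]
      rw [weight_w2, Prod.mk.injEq]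
      exact fun h => hj h.1.symm
    · intro h
      exact absurd (Finset.mem_range.mpr (by omega)) h

/-- the ratio of square roots of dimensions produced by a factor of bidegree `(i, j)` -/
noncomputable def qq (u v : ℝ) (i j : ℕ) : ℝ := v ^ j / u ^ i

/-- the total weight of a homogeneous factor of degree `e` -/
noncomputable def sig (u v : ℝ) (e : ℕ) : ℝ :=
  ∑ j ∈ Finset.range (e + 1), min (qq u v j (e - j)) (qq u v j (e - j))⁻¹

theorem qq_pos {u v : ℝ} (hu : 0 < u) (hv : 0 < v) (i j : ℕ) : 0 < qq u v i j := by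
  unfold qq; positivity

theorem qq_add {u v : ℝ} (i j i' j' : ℕ) :
    qq u v (i + i') (j + j') = qq u v i j * qq u v i' j' := by
  unfold qq; rw [pow_add, pow_add, div_mul_div_comm]

theorem sig_nonneg {u v : ℝ} (hu : 0 < u) (hv : 0 < v) (e : ℕ) : 0 ≤ sig u v e :=
  Finset.sum_nonneg fun _ _ => le_min (qq_pos hu hv _ _).le (inv_pos.mpr (qq_pos hu hv _ _)).le

/-- the complexity measure -/
noncomputable def mu (l₁ l₂ a b : ℕ) (P : MvPolynomial σ K) : ℝ :=
  ((mat Y K l₁ (l₂ + b) (l₁ + a) l₂ P).rank : ℝ)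

theorem mu_sum_le {ι : Type*} (l₁ l₂ a b : ℕ) (s : Finset ι) (P : ι → MvPolynomial σ K) :
    mu Y l₁ l₂ a b (∑ i ∈ s, P i) ≤ ∑ i ∈ s, mu Y l₁ l₂ a b (P i) := by
  unfold mu
  rw [map_sum]
  exact_mod_cast rank_sum_le' s _

theorem mu_smul_le (l₁ l₂ a b : ℕ) (c : K) (P : MvPolynomial σ K) :
    mu Y l₁ l₂ a b (c • P) ≤ mu Y l₁ l₂ a b P := by
  unfold mu
  rw [map_smul]
  exact_mod_cast rank_smul_le' c _

theorem mu_base {l₁ l₂ a b : ℕ} {u v : ℝ} (hu : 0 < u) (hv : 0 < v)
    (h₁ : IsTop σ (u ^ 2) l₁) (h₂ : IsTop σ (v ^ 2) l₂)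
    {V U : MvPolynomial σ K} {a₁ b₁ a₂ b₂ : ℕ}
    (hU : IsWeightedHomogeneous (w2 Y) U (a₁, b₁)) (hV : IsWeightedHomogeneous (w2 Y) V (a₂, b₂)) :
    mu Y l₁ l₂ a b (V * U) ≤ ((lev σ l₁).card * (lev σ l₂).card * u ^ a * v ^ b) *
      (qq u v a₁ b₁ / qq u v a₂ b₂) := by
  have hq₁ := qq_pos hu hv a₁ b₁
  have hq₂ := qq_pos hu hv a₂ b₂
  by_cases h : l₁ + (a₂ + a₁) = l₁ + a ∧ l₂ + b = l₂ + (b₂ + b₁)
  · obtain rfl : a = a₂ + a₁ := by omega
    obtain rfl : b = b₂ + b₁ := by omega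
    unfold mu
    have key := mat_mul Y (i' := l₁) (j' := l₂ + (b₂ + b₁)) (i'' := l₁ + a₂) (j := l₂) V U hU
    have hr : (mat Y K l₁ (l₂ + (b₂ + b₁)) (l₁ + (a₂ + a₁)) l₂ (V * U)).rank ≤
        (lev σ (l₁ + a₂)).card * (lev σ (l₂ + b₁)).card := by
      rw [← add_assoc l₁, key]
      refine le_trans (Matrix.rank_mul_le_left _ _) ?_
      refine le_trans (Matrix.rank_le_card_width _) ?_
      simp
    have hr' : ((mat Y K l₁ (l₂ + (b₂ + b₁)) (l₁ + (a₂ + a₁)) l₂ (V * U)).rank : ℝ) ≤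
        ((lev σ (l₁ + a₂)).card : ℝ) * ((lev σ (l₂ + b₁)).card : ℝ) := by exact_mod_cast hr
    refine le_trans hr' ?_
    have e₁ := h₁.add (by positivity) a₂
    have e₂ := h₂.add (by positivity) b₁
    calc ((lev σ (l₁ + a₂)).card : ℝ) * ((lev σ (l₂ + b₁)).card : ℝ)
        ≤ (((lev σ l₁).card : ℝ) * (u ^ 2) ^ a₂) * (((lev σ l₂).card : ℝ) * (v ^ 2) ^ b₁) := by
          gcongr
      _ = _ := by
          unfold qq
          rw [← pow_mul, ← pow_mul]
          field_simp
          ring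
  · have := hV.mul hU
    unfold mu
    rw [mat_eq_zero Y this h]
    simp only [Matrix.rank_zero, Nat.cast_zero]
    positivity

theorem mu_prod_aux {l₁ l₂ a b : ℕ} {u v : ℝ} (hu : 0 < u) (hv : 0 < v)
    (h₁ : IsTop σ (u ^ 2) l₁) (h₂ : IsTop σ (v ^ 2) l₂)
    (s : Multiset (MvPolynomial σ K × ℕ)) (hs : ∀ p ∈ s, p.1.IsHomogeneous p.2) :
    ∀ {V U : MvPolynomial σ K} {a₁ b₁ a₂ b₂ : ℕ},
      IsWeightedHomogeneous (w2 Y) U (a₁, b₁) → IsWeightedHomogeneous (w2 Y) V (a₂, b₂) →
      mu Y l₁ l₂ a b (V * U * (s.map Prod.fst).prod) ≤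
        ((lev σ l₁).card * (lev σ l₂).card * u ^ a * v ^ b) *
          (qq u v a₁ b₁ / qq u v a₂ b₂) * (s.map (fun p => sig u v p.2)).prod := by
  induction s using Multiset.induction_on with
  | empty =>
    intro V U a₁ b₁ a₂ b₂ hU hV
    simpa using mu_base Y hu hv h₁ h₂ hU hV
  | cons p s ih =>
    intro V U a₁ b₁ a₂ b₂ hU hV
    have ih' := @ih (fun p hp => hs p (Multiset.mem_cons_of_mem hp))
    have hp := hs p (Multiset.mem_cons_self _ _)
    have hprod : 0 ≤ (s.map (fun p => sig u v p.2)).prod :=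
      Multiset.prod_nonneg (by
        intro x hx
        obtain ⟨p, _, rfl⟩ := Multiset.mem_map.mp hx
        exact sig_nonneg hu hv _)
    rw [Multiset.map_cons, Multiset.prod_cons, Multiset.map_cons, Multiset.prod_cons]
    conv_lhs => rw [homog_decomp Y hp]
    rw [Finset.sum_mul, Finset.mul_sum]
    refine le_trans (mu_sum_le Y _ _ _ _ _ _) ?_
    rw [sig, Finset.sum_mul, Finset.mul_sum]
    refine Finset.sum_le_sum fun j _ => ?_
    set Q := weightedHomogeneousComponent (w2 Y) (j, p.2 - j) p.1 with hQdef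
    have hQ : IsWeightedHomogeneous (w2 Y) Q (j, p.2 - j) :=
      weightedHomogeneousComponent_isWeightedHomogeneous _ _
    have hq := qq_pos hu hv j (p.2 - j)
    have hq₁ := qq_pos hu hv a₁ b₁
    have hq₂ := qq_pos hu hv a₂ b₂
    rcases le_total (qq u v j (p.2 - j)) (qq u v j (p.2 - j))⁻¹ with h | h
    · rw [min_eq_left h]
      have := ih' (a₁ := a₁ + j) (b₁ := b₁ + (p.2 - j)) (hU.mul hQ) hV
      rw [qq_add] at this
      calc mu Y l₁ l₂ a b (V * U * (Q * (s.map Prod.fst).prod))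
          = mu Y l₁ l₂ a b (V * (U * Q) * (s.map Prod.fst).prod) := by congr 1; ring
        _ ≤ _ := this
        _ = _ := by ring
    · rw [min_eq_right h]
      have := ih' (a₂ := a₂ + j) (b₂ := b₂ + (p.2 - j)) hU (hV.mul hQ)
      rw [qq_add] at this
      calc mu Y l₁ l₂ a b (V * U * (Q * (s.map Prod.fst).prod))
          = mu Y l₁ l₂ a b (V * Q * U * (s.map Prod.fst).prod) := by congr 1; ring
        _ ≤ _ := this
        _ = _ := by field_simp

theorem mu_prod {l₁ l₂ a b : ℕ} {u v : ℝ} (hu : 0 < u) (hv : 0 < v)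
    (h₁ : IsTop σ (u ^ 2) l₁) (h₂ : IsTop σ (v ^ 2) l₂)
    (s : Multiset (MvPolynomial σ K × ℕ)) (hs : ∀ p ∈ s, p.1.IsHomogeneous p.2) :
    mu Y l₁ l₂ a b (s.map Prod.fst).prod ≤
      ((lev σ l₁).card * (lev σ l₂).card * u ^ a * v ^ b) * (s.map (fun p => sig u v p.2)).prod := by
  have h := mu_prod_aux Y (a := a) (b := b) hu hv h₁ h₂ s hs (V := 1) (U := 1)
    (a₁ := 0) (b₁ := 0) (a₂ := 0) (b₂ := 0)
    (isWeightedHomogeneous_one K (w2 Y)) (isWeightedHomogeneous_one K (w2 Y))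
  simpa [qq] using h

end Crest.Agent.R327
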