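import Mathlib

set_option autoImplicit false

namespace Crest.Agent.R327

open Finset

variable {σ : Type*} [Fintype σ] [DecidableEq σ]

variable (σ) in
/-- monomials of degree `k` -/
noncomputable def lev (k : ℕ) : Finset (σ →₀ ℕ) := (Finset.univ : Finset σ).finsuppAntidiag k

theorem mem_lev {k : ℕ} {m : σ →₀ ℕ} : m ∈ lev σ k ↔ m.degree = k := by
  simp [lev, Finsupp.degree_eq_sum]

theorem card_lev (k : ℕ) : (lev σ k).card = (Fintype.card σ + k - 1).choose k := by
  simp [lev, Finset.card_finsuppAntidiag_nat_eq_choose]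

attribute [irreducible] lev

theorem choose_step (N k : ℕ) (hN : 1 ≤ N) :
    ((N + (k + 1) - 1).choose (k + 1)) * (k + 1) = (N + k) * (N + k - 1).choose k := by
  obtain ⟨M, rfl⟩ : ∃ M, N = M + 1 := ⟨N - 1, by omega⟩
  have h1 : M + 1 + (k + 1) - 1 = (M + k) + 1 := by omega
  have h2 : M + 1 + k - 1 = M + k := by omega
  rw [h1, h2, ← Nat.add_one_mul_choose_eq]
  ring

/-- there is a level at which `D k / y ^ k` is maximal -/
theorem exists_argmax (N : ℕ) (hN : 1 ≤ N) (y : ℝ) (hy : 1 < y) :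
    ∃ l : ℕ, ∀ k : ℕ, (((N + k - 1).choose k : ℕ) : ℝ) * y ^ l ≤
      (((N + l - 1).choose l : ℕ) : ℝ) * y ^ k := by
  set D : ℕ → ℝ := fun k => (((N + k - 1).choose k : ℕ) : ℝ) with hD
  have hDnn : ∀ k, 0 ≤ D k := fun k => Nat.cast_nonneg _
  have hstep : ∀ k : ℕ, D (k + 1) * ((k : ℝ) + 1) = ((N : ℝ) + k) * D k := by
    intro k
    have := choose_step N k hN
    simp only [hD]
    exact_mod_cast this
  have hy0 : 0 < y - 1 := by linarith
  have hN' : (0 : ℝ) ≤ (N : ℝ) - 1 := by
    have : (1 : ℝ) ≤ N := by exact_mod_cast hN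
    linarith
  set l : ℕ := ⌊((N : ℝ) - 1) / (y - 1)⌋₊ with hl
  have hl1 : (l : ℝ) * (y - 1) ≤ (N : ℝ) - 1 := by
    have := Nat.floor_le (div_nonneg hN' hy0.le)
    rwa [← hl, le_div_iff₀ hy0] at this
  have hl2 : (N : ℝ) - 1 < ((l : ℝ) + 1) * (y - 1) := by
    have := Nat.lt_floor_add_one (((N : ℝ) - 1) / (y - 1))
    rwa [← hl, div_lt_iff₀ hy0] at this
  have hup : ∀ k : ℕ, l ≤ k → D (k + 1) ≤ y * D k := by
    intro k hk
    have hk' : (l : ℝ) ≤ k := by exact_mod_cast hk
    have hpos : (0 : ℝ) < (k : ℝ) + 1 := by positivity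
    have h1 : (N : ℝ) + k ≤ y * ((k : ℝ) + 1) := by nlinarith
    have h2 : D (k + 1) * ((k : ℝ) + 1) ≤ (y * D k) * ((k : ℝ) + 1) := by
      rw [hstep]; nlinarith [hDnn k]
    exact le_of_mul_le_mul_right h2 hpos
  have hdown : ∀ k : ℕ, k < l → y * D k ≤ D (k + 1) := by
    intro k hk
    have hk' : (k : ℝ) + 1 ≤ l := by exact_mod_cast hk
    have hpos : (0 : ℝ) < (k : ℝ) + 1 := by positivity
    have h1 : y * ((k : ℝ) + 1) ≤ (N : ℝ) + k := by nlinarith
    have h2 : (y * D k) * ((k : ℝ) + 1) ≤ D (k + 1) * ((k : ℝ) + 1) := by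
      rw [hstep]; nlinarith [hDnn k]
    exact le_of_mul_le_mul_right h2 hpos
  have hy1 : 0 < y := by linarith
  refine ⟨l, fun k => ?_⟩
  change D k * y ^ l ≤ D l * y ^ k
  rcases le_total l k with h | h
  · induction k, h using Nat.le_induction with
    | base => exact le_rfl
    | succ k hk ih =>
      calc D (k + 1) * y ^ l ≤ (y * D k) * y ^ l := by gcongr; exact hup k hk
        _ = y * (D k * y ^ l) := by ring
        _ ≤ y * (D l * y ^ k) := by gcongr
        _ = D l * y ^ (k + 1) := by ring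
  · induction h using Nat.decreasingInduction with
    | self => exact le_rfl
    | of_succ k hk ih =>
      have h1 : y * (D k * y ^ l) ≤ y * (D l * y ^ k) := by
        calc y * (D k * y ^ l) = (y * D k) * y ^ l := by ring
          _ ≤ D (k + 1) * y ^ l := by gcongr; exact hdown k hk
          _ ≤ D l * y ^ (k + 1) := ih
          _ = y * (D l * y ^ k) := by ring
      exact le_of_mul_le_mul_left h1 hy1

variable (σ) in
/-- `l` is a level maximising `D k / y ^ k`. -/
def IsTop (y : ℝ) (l : ℕ) : Prop :=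
  ∀ k : ℕ, ((lev σ k).card : ℝ) * y ^ l ≤ ((lev σ l).card : ℝ) * y ^ k

theorem exists_isTop [Nonempty σ] (y : ℝ) (hy : 1 < y) : ∃ l, IsTop σ y l := by
  obtain ⟨l, hl⟩ := exists_argmax (Fintype.card σ) Fintype.card_pos y hy
  exact ⟨l, fun k => by rw [card_lev, card_lev]; exact hl k⟩

theorem card_lev_pos [Nonempty σ] (k : ℕ) : 0 < (lev σ k).card := by
  obtain ⟨x⟩ := ‹Nonempty σ›
  exact Finset.card_pos.mpr ⟨Finsupp.single x k, mem_lev.mpr (by simp)⟩

theorem IsTop.add {y : ℝ} {l : ℕ} (h : IsTop σ y l) (hy : 0 < y) (k : ℕ) :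
    ((lev σ (l + k)).card : ℝ) ≤ ((lev σ l).card : ℝ) * y ^ k := by
  have := h (l + k)
  rw [pow_add, mul_comm (y ^ l) (y ^ k), ← mul_assoc] at this
  exact le_of_mul_le_mul_right this (by positivity)

theorem IsTop.card_div {y : ℝ} {l : ℕ} (h : IsTop σ y l) (hy : 0 < y) (S : Finset σ) :
    (((lev σ l).filter (fun m => ∀ x ∈ S, 1 ≤ m x)).card : ℝ) * y ^ S.card ≤
      ((lev σ l).card : ℝ) := by
  set e : σ →₀ ℕ := ∑ x ∈ S, Finsupp.single x 1 with he
  have hedeg : e.degree = S.card := by simp [he, map_sum]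
  have hle : ∀ m : σ →₀ ℕ, (∀ x ∈ S, 1 ≤ m x) → e ≤ m := by
    intro m hm x
    simp only [he, Finsupp.coe_finsetSum, Finset.sum_apply, Finsupp.single_apply]
    rw [Finset.sum_ite_eq']
    split_ifs with hx
    · exact hm x hx
    · exact Nat.zero_le _
  by_cases hS : S.card ≤ l
  · have hc : ((lev σ l).filter (fun m => ∀ x ∈ S, 1 ≤ m x)).card ≤ (lev σ (l - S.card)).card := by
      refine Finset.card_le_card_of_injOn (fun m => m - e) ?_ ?_
      · intro m hm
        simp only [Finset.coe_filter, Set.mem_ofPred_eq, mem_lev, Finset.mem_coe] at hm ⊢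
        have h1 : (m - e) + e = m := tsub_add_cancel_of_le (hle m hm.2)
        have h2 := congrArg Finsupp.degree h1
        rw [map_add, hedeg, hm.1] at h2
        omega
      · intro m hm m' hm' hmm
        simp only [Finset.coe_filter, Set.mem_ofPred_eq] at hm hm'
        rw [← tsub_add_cancel_of_le (hle m hm.2), ← tsub_add_cancel_of_le (hle m' hm'.2)]
        exact congrArg (· + e) hmm
    have h1 := h (l - S.card)
    have h2 : y ^ l = y ^ S.card * y ^ (l - S.card) := by
      rw [← pow_add]; congr 1; omega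
    rw [h2, ← mul_assoc] at h1
    have h3 := le_of_mul_le_mul_right h1 (by positivity)
    refine le_trans ?_ h3
    gcongr
  · have : (lev σ l).filter (fun m => ∀ x ∈ S, 1 ≤ m x) = ∅ := by
      rw [Finset.filter_eq_empty_iff]
      intro m hm hm2
      have := Finsupp.degree_mono (hle m hm2)
      rw [hedeg, mem_lev.mp hm] at this
      exact hS this
    simp [this]

end Crest.Agent.R327
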