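import Crest.Agent.R327.Paths

set_option autoImplicit false

namespace Crest.Agent.R327

open Finset MvPolynomial Crest.ArithCircuit

section reindex
variable {K ι L B P S R L' B' P' S' R' : Type*} (C : SPSPS K ι L B P S R)
  (eL : L ≃ L') (eB : B ≃ B') (eP : P ≃ P') (eS : S ≃ S') (eR : R ≃ R')

/-- transport of a circuit along bijections of the index types -/
def reindex : SPSPS K ι L' B' P' S' R' where
  leaf l := C.leaf (eL.symm l)
  inB b := (C.inB (eB.symm b)).map eL.toEmbedding
  coefB b l := C.coefB (eB.symm b) (eL.symm l)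
  inP p := (C.inP (eP.symm p)).map eB
  inS s := (C.inS (eS.symm s)).map eP.toEmbedding
  coefS s p := C.coefS (eS.symm s) (eP.symm p)
  inR r := (C.inR (eR.symm r)).map eS
  inOut := C.inOut.map eR.toEmbedding
  coefOut r := C.coefOut (eR.symm r)

theorem reindex_leafDeg (l : L') :
    (reindex C eL eB eP eS eR).leafDeg l = C.leafDeg (eL.symm l) := rfl

theorem reindex_degB (b : B') : (reindex C eL eB eP eS eR).degB b = C.degB (eB.symm b) := by
  simp only [SPSPS.degB]
  rw [show (reindex C eL eB eP eS eR).inB b = (C.inB (eB.symm b)).map eL.toEmbedding from rfl,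
    Finset.sup_map]
  congr 1
  funext l
  simp [reindex_leafDeg]

theorem reindex_degP (p : P') : (reindex C eL eB eP eS eR).degP p = C.degP (eP.symm p) := by
  simp only [SPSPS.degP]
  rw [show (reindex C eL eB eP eS eR).inP p = (C.inP (eP.symm p)).map eB from rfl,
    Multiset.map_map]
  congr 2
  funext l
  simp [reindex_degB]

theorem reindex_degS (s : S') : (reindex C eL eB eP eS eR).degS s = C.degS (eS.symm s) := by
  simp only [SPSPS.degS]
  rw [show (reindex C eL eB eP eS eR).inS s = (C.inS (eS.symm s)).map eP.toEmbedding from rfl,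
    Finset.sup_map]
  congr 1
  funext l
  simp [reindex_degP]

theorem reindex_degR (r : R') : (reindex C eL eB eP eS eR).degR r = C.degR (eR.symm r) := by
  simp only [SPSPS.degR]
  rw [show (reindex C eL eB eP eS eR).inR r = (C.inR (eR.symm r)).map eS from rfl,
    Multiset.map_map]
  congr 2
  funext l
  simp [reindex_degS]

theorem reindex_degOut : (reindex C eL eB eP eS eR).degOut = C.degOut := by
  simp only [SPSPS.degOut]
  rw [show (reindex C eL eB eP eS eR).inOut = C.inOut.map eR.toEmbedding from rfl,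
    Finset.sup_map]
  congr 1
  funext l
  simp [reindex_degR]

theorem reindex_homog (hC : C.IsHomogeneous) : (reindex C eL eB eP eS eR).IsHomogeneous := by
  refine ⟨fun b l hl => ?_, fun s p hp => ?_, fun r hr => ?_⟩
  · obtain ⟨l', hl', rfl⟩ := Finset.mem_map.mp hl
    rw [reindex_leafDeg, reindex_degB]
    simpa using hC.1 _ _ hl'
  · obtain ⟨l', hl', rfl⟩ := Finset.mem_map.mp hp
    rw [reindex_degP, reindex_degS]
    simpa using hC.2.1 _ _ hl'
  · obtain ⟨l', hl', rfl⟩ := Finset.mem_map.mp hr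
    rw [reindex_degR, reindex_degOut]
    simpa using hC.2.2 _ hl'

variable [CommSemiring K]

theorem reindex_leafVal (l : L') :
    (reindex C eL eB eP eS eR).leafVal l = C.leafVal (eL.symm l) := rfl

theorem reindex_valB (b : B') : (reindex C eL eB eP eS eR).valB b = C.valB (eB.symm b) := by
  simp only [SPSPS.valB, reindex_leafVal]
  simp [reindex]

theorem reindex_valP (p : P') : (reindex C eL eB eP eS eR).valP p = C.valP (eP.symm p) := by
  simp only [SPSPS.valP]
  rw [show (reindex C eL eB eP eS eR).inP p = (C.inP (eP.symm p)).map eB from rfl,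
    Multiset.map_map]
  congr 2
  funext l
  simp [reindex_valB]

theorem reindex_valS (s : S') : (reindex C eL eB eP eS eR).valS s = C.valS (eS.symm s) := by
  simp only [SPSPS.valS, reindex_valP]
  simp [reindex]

theorem reindex_valR (r : R') : (reindex C eL eB eP eS eR).valR r = C.valR (eR.symm r) := by
  simp only [SPSPS.valR]
  rw [show (reindex C eL eB eP eS eR).inR r = (C.inR (eR.symm r)).map eS from rfl,
    Multiset.map_map]
  congr 2
  funext l
  simp [reindex_valS]

theorem reindex_output : (reindex C eL eB eP eS eR).output = C.output := by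
  simp only [SPSPS.output, reindex_valR]
  simp [reindex]

end reindex

theorem exists_fin {K ι L B P S R : Type*} [CommSemiring K] [Fintype L] [Fintype B] [Fintype P]
    [Fintype S] [Fintype R] (C : SPSPS K ι L B P S R) (hC : C.IsHomogeneous) :
    ∃ (l b p s r : ℕ) (C' : SPSPS K ι (Fin l) (Fin b) (Fin p) (Fin s) (Fin r)),
      C'.IsHomogeneous ∧ C'.output = C.output ∧ C'.size = C.size :=
  ⟨_, _, _, _, _, reindex C (Fintype.equivFin L) (Fintype.equivFin B) (Fintype.equivFin P)
    (Fintype.equivFin S) (Fintype.equivFin R), reindex_homog _ _ _ _ _ _ hC,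
    reindex_output _ _ _ _ _ _, by simp [SPSPS.size]⟩

theorem prod_map_finsetSum {α β M : Type*} [CommMonoid M] (s : Finset α) (g : α → Multiset β)
    (f : β → M) : ((∑ a ∈ s, g a).map f).prod = ∏ a ∈ s, ((g a).map f).prod := by
  classical
  induction s using Finset.induction_on with
  | empty => simp
  | insert a s ha ih => rw [Finset.sum_insert ha, Finset.prod_insert ha, Multiset.map_add,
      Multiset.prod_add, ih]

section construction
variable (K : Type*) [CommSemiring K] (k t r : ℕ)

/-- the variable matrices, extended by the identity -/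
noncomputable def Mx (i : ℕ) :
    Matrix (Fin (k + 1)) (Fin (k + 1)) (MvPolynomial (Fin (k + 1) × Fin (k + 1) × Fin (k + 1)) K) :=
  if h : i < k + 1 then varMatrix K (k + 1) ⟨i, h⟩ else 1

theorem imm_chunk (h : k + 1 ≤ (r + 1) * (t + 1)) :
    imm K (k + 1) = (List.ofFn fun j : Fin (r + 1) =>
      (List.ofFn fun s : Fin (t + 1) => Mx K k (j * (t + 1) + s)).prod).prod 0 0 := by
  have h1 : (List.ofFn fun j : Fin (r + 1) =>
      (List.ofFn fun s : Fin (t + 1) => Mx K k (j * (t + 1) + s)).prod).prod =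
      (List.ofFn fun i : Fin ((r + 1) * (t + 1)) => Mx K k i).prod := by
    rw [List.ofFn_mul, List.prod_flatten, List.map_ofFn]
    rfl
  obtain ⟨d, hd⟩ := Nat.exists_eq_add_of_le h
  have h2 : ∀ N, N = k + 1 + d → (List.ofFn fun i : Fin N => Mx K k i).prod =
      (List.ofFn (varMatrix K (k + 1))).prod := by
    rintro N rfl
    rw [List.ofFn_add, List.prod_append, List.prod_eq_one (l := List.ofFn fun _ : Fin d => _),
      mul_one]
    · congr 2
      funext i
      simp only [Mx, Fin.val_castLE, dif_pos i.2]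
    · intro x hx
      obtain ⟨i, rfl⟩ := List.mem_ofFn.mp hx
      simp only [Mx, Fin.val_natAdd]
      rw [dif_neg (by omega)]
  rw [h1, h2 _ hd, imm]

/-- the two-level circuit -/
noncomputable def circ : SPSPS K (Fin (k + 1) × Fin (k + 1) × Fin (k + 1))
    (Fin (k + 1) × Fin (k + 1) × Fin (k + 1)) (Fin (k + 1) × Fin (k + 1) × Fin (k + 1))
    (Fin (r + 1) × Fin (k + 1) × Fin (k + 1) × (Fin t → Fin (k + 1)))
    (Fin (r + 1) × Fin (k + 1) × Fin (k + 1)) (Fin r → Fin (k + 1)) where
  leaf := Sum.inl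
  inB b := {b}
  coefB _ _ := 1
  inP p := ∑ s : Fin (t + 1), if h : p.1 * (t + 1) + s < k + 1 then
    {(⟨_, h⟩, src p.2.1 p.2.2.2 s, tgt p.2.2.1 p.2.2.2 s)} else 0
  inS s := Finset.univ.map ⟨fun p => (s.1, s.2.1, s.2.2, p), fun _ _ h => congrArg (·.2.2.2) h⟩
  coefS _ p := ∏ s : Fin (t + 1), if p.1 * (t + 1) + s < k + 1 then 1 else
    if src p.2.1 p.2.2.2 s = tgt p.2.2.1 p.2.2.2 s then 1 else 0
  inR q := Finset.univ.val.map fun j : Fin (r + 1) => (j, src 0 q j, tgt 0 q j)
  inOut := Finset.univ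
  coefOut _ := 1

/-- the degree of block `j` -/
def dblk (j : ℕ) : ℕ := ∑ s : Fin (t + 1), if j * (t + 1) + s < k + 1 then 1 else 0

theorem circ_degB (b : Fin (k + 1) × Fin (k + 1) × Fin (k + 1)) : (circ K k t r).degB b = 1 := by
  simp [SPSPS.degB, SPSPS.leafDeg, circ]

theorem circ_degP (p : Fin (r + 1) × Fin (k + 1) × Fin (k + 1) × (Fin t → Fin (k + 1))) :
    (circ K k t r).degP p = dblk k t p.1 := by
  simp only [SPSPS.degP, funext (circ_degB K k t r), Multiset.map_const', Multiset.sum_replicate,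
    smul_eq_mul, mul_one]
  simp only [circ, Multiset.card_sum, dblk]
  refine Finset.sum_congr rfl fun s _ => ?_
  split_ifs <;> simp

theorem circ_degS (s : Fin (r + 1) × Fin (k + 1) × Fin (k + 1)) :
    (circ K k t r).degS s = dblk k t s.1 := by
  simp only [SPSPS.degS, funext (circ_degP K k t r)]
  simp only [circ, Finset.sup_map]
  exact Finset.sup_const (Finset.univ_nonempty (α := Fin t → Fin (k + 1))) (dblk k t s.1)

theorem circ_degR (q : Fin r → Fin (k + 1)) :
    (circ K k t r).degR q = ∑ j : Fin (r + 1), dblk k t j := by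
  simp only [SPSPS.degR, funext (circ_degS K k t r)]
  simp only [circ, Multiset.map_map]
  rfl

theorem circ_homog : (circ K k t r).IsHomogeneous := by
  refine ⟨fun b l _ => ?_, fun s p hp => ?_, fun q _ => ?_⟩
  · rw [circ_degB]; rfl
  · rw [circ_degS, circ_degP]
    obtain ⟨p', _, rfl⟩ := Finset.mem_map.mp hp
    rfl
  · simp only [SPSPS.degOut, funext (circ_degR K k t r)]
    exact (Finset.sup_const Finset.univ_nonempty _).symm

theorem circ_valB (b : Fin (k + 1) × Fin (k + 1) × Fin (k + 1)) : (circ K k t r).valB b = X b := by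
  simp [SPSPS.valB, SPSPS.leafVal, circ]

theorem circ_valP (p : Fin (r + 1) × Fin (k + 1) × Fin (k + 1) × (Fin t → Fin (k + 1))) :
    (circ K k t r).valP p = ∏ s : Fin (t + 1), if h : p.1 * (t + 1) + s < k + 1 then
      X (⟨_, h⟩, src p.2.1 p.2.2.2 s, tgt p.2.2.1 p.2.2.2 s) else 1 := by
  simp only [SPSPS.valP, funext (circ_valB K k t r)]
  simp only [circ]
  rw [prod_map_finsetSum]
  refine Finset.prod_congr rfl fun s _ => ?_
  split_ifs <;> simp

theorem circ_valS (s : Fin (r + 1) × Fin (k + 1) × Fin (k + 1)) :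
    (circ K k t r).valS s =
      (List.ofFn fun i : Fin (t + 1) => Mx K k (s.1 * (t + 1) + i)).prod s.2.1 s.2.2 := by
  rw [list_prod_apply]
  simp only [SPSPS.valS, circ_valP]
  simp only [circ, Finset.sum_map, Function.Embedding.coeFn_mk]
  refine Finset.sum_congr rfl fun p _ => ?_
  rw [smul_eq_C_mul, map_prod, ← Finset.prod_mul_distrib]
  refine Finset.prod_congr rfl fun i _ => ?_
  unfold Mx
  split_ifs with h h2
  · simp [varMatrix]
  · rw [h2]; simp
  · simp [h2]

theorem circ_output (h : k + 1 ≤ (r + 1) * (t + 1)) : (circ K k t r).output = imm K (k + 1) := by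
  rw [imm_chunk K k t r h, list_prod_apply]
  simp only [SPSPS.output, SPSPS.valR, funext (circ_valS K k t r)]
  simp only [circ, one_smul, Multiset.map_map]
  rfl

theorem circ_size : (circ K k t r).size = 2 * (k + 1) ^ 3 + (r + 1) * (k + 1) ^ 2 +
    (r + 1) * (k + 1) ^ (t + 1 + 1) + (k + 1) ^ r + 1 := by
  simp only [SPSPS.size, Fintype.card_prod, Fintype.card_fin, Fintype.card_fun]
  ring

end construction

theorem size_num {n t r : ℕ} (hn : 2 ≤ n) (ht : 1 ≤ t) (hr : r + 2 ≤ n) (hrt : r ≤ t) :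
    2 * n ^ 3 + (r + 1) * n ^ 2 + (r + 1) * n ^ (t + 1 + 1) + n ^ r + 1 ≤ n ^ (t + 4) := by
  have hA : n ≤ n ^ t := by
    calc n = n ^ 1 := (pow_one n).symm
      _ ≤ _ := Nat.pow_le_pow_right (by omega) ht
  have hB : n ^ r ≤ n ^ t := Nat.pow_le_pow_right (by omega) hrt
  have e1 : n ^ (t + 1 + 1) = n ^ 2 * n ^ t := by ring
  have e2 : n ^ (t + 4) = n ^ 2 * (n ^ 2 * n ^ t) := by ring
  rw [e1, e2]
  generalize n ^ t = A at *
  generalize n ^ r = B at *
  obtain ⟨m, rfl⟩ : ∃ m, n = m + 2 := ⟨n - 2, by omega⟩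
  obtain ⟨a, rfl⟩ : ∃ a, A = m + 2 + a := ⟨A - (m + 2), by omega⟩
  have hr' : r ≤ m := by omega
  have h1 : (r + 1) * (m + 2) ^ 2 ≤ (m + 1) * (m + 2) ^ 2 := by gcongr
  have h2 : (r + 1) * ((m + 2) ^ 2 * (m + 2 + a)) ≤ (m + 1) * ((m + 2) ^ 2 * (m + 2 + a)) := by
    gcongr
  have h3 : 2 * (m + 2) ^ 3 ≤ 2 * ((m + 2) ^ 2 * (m + 2 + a)) := by
    have : (m + 2) ^ 3 = (m + 2) ^ 2 * (m + 2) := by ring
    rw [this]; gcongr
  have h4 : (m + 1) * (m + 2) ^ 2 + (m + 2 + a) + 1 ≤ (m + 2) ^ 2 * (m + 2 + a) := by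
    nlinarith [Nat.zero_le (m * a), Nat.zero_le (m * m * a), Nat.zero_le (m * m)]
  have h5 : (m + 4) * ((m + 2) ^ 2 * (m + 2 + a)) ≤ (m + 2) ^ 2 * ((m + 2) ^ 2 * (m + 2 + a)) := by
    gcongr
    nlinarith
  nlinarith

end Crest.Agent.R327
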