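import Crest.Agent.R327.Lower

set_option autoImplicit false

namespace Crest.Agent.R327

open Finset
open scoped Classical

/-- the greedy balanced state after `t` layers -/
noncomputable def gst (u v : ℝ) : ℕ → ℕ × ℕ
  | 0 => (0, 0)
  | t + 1 => if u ^ (gst u v t).1 ≤ v ^ (gst u v t).2 then ((gst u v t).1 + 1, (gst u v t).2)
      else ((gst u v t).1, (gst u v t).2 + 1)

/-- the greedy balanced word -/
noncomputable def gwd (u v : ℝ) (t : ℕ) : Bool := decide (u ^ (gst u v t).1 ≤ v ^ (gst u v t).2)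

theorem gst_succ (u v : ℝ) (t : ℕ) : gst u v (t + 1) =
    if gwd u v t = true then ((gst u v t).1 + 1, (gst u v t).2)
      else ((gst u v t).1, (gst u v t).2 + 1) := by
  simp only [gst, gwd, decide_eq_true_eq]

theorem gst_inv {u v : ℝ} (hv : 1 ≤ v) (huv : v ≤ u) (t : ℕ) :
    u ^ (gst u v t).1 ≤ u * v ^ (gst u v t).2 ∧ v ^ (gst u v t).2 ≤ u * u ^ (gst u v t).1 := by
  have hu : 1 ≤ u := le_trans hv huv
  induction t with
  | zero => simp [gst, hu]
  | succ t ih =>
    obtain ⟨h1, h2⟩ := ih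
    have ha : 0 < u ^ (gst u v t).1 := by positivity
    have hb : 0 < v ^ (gst u v t).2 := by positivity
    rw [gst]
    split_ifs with h
    · simp only [pow_succ]
      constructor <;> nlinarith [mul_pos ha (show 0 < u by linarith)]
    · simp only [pow_succ]
      push Not at h
      constructor <;> nlinarith [mul_pos hb (show 0 < u by linarith)]

theorem gst_fst (u v : ℝ) (t : ℕ) :
    (gst u v t).1 = ∑ i ∈ range t, if gwd u v i = true then 1 else 0 := by
  induction t with
  | zero => simp [gst]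
  | succ t ih => rw [sum_range_succ, ← ih, gst_succ]; split_ifs <;> simp

theorem gst_snd (u v : ℝ) (t : ℕ) :
    (gst u v t).2 = ∑ i ∈ range t, if ¬ gwd u v i = true then 1 else 0 := by
  induction t with
  | zero => simp [gst]
  | succ t ih => rw [sum_range_succ, ← ih, gst_succ]; split_ifs <;> simp

/-- the gauge -/
noncomputable def gam (u v : ℝ) (t : ℕ) (c : Bool) : ℝ :=
  if c = true then (v ^ 2) ^ (gst u v t).2 else (u ^ 2) ^ (gst u v t).1

theorem om_gam {u v : ℝ} (hu : 0 < u) (hv : 0 < v) (t : ℕ) (c : Bool) :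
    om (u ^ 2) (v ^ 2) (gwd u v t) c * gam u v (t + 1) c = gam u v t c := by
  unfold om gam
  rw [gst_succ]
  cases gwd u v t <;> cases c <;> simp [pow_succ] <;> field_simp

theorem gam_switch {u v : ℝ} (hv : 1 ≤ v) (huv : v ≤ u) (t : ℕ) (c c' : Bool) :
    gam u v t c' ≤ gam u v t c * (if c ≠ c' then u ^ 2 else 1) := by
  have hu : 1 ≤ u := le_trans hv huv
  obtain ⟨h1, h2⟩ := gst_inv hv huv t
  have e1 : ∀ (x : ℝ) (n : ℕ), (x ^ 2) ^ n = (x ^ n) ^ 2 := fun x n => by
    rw [← pow_mul, ← pow_mul, mul_comm]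
  unfold gam
  cases c <;> cases c' <;> simp only [e1] <;> simp
  · rw [← mul_pow, mul_comm]
    exact pow_le_pow_left₀ (by positivity) h2 2
  · rw [← mul_pow, mul_comm]
    exact pow_le_pow_left₀ (by positivity) h1 2

theorem gam_ge {u v : ℝ} (hv : 1 ≤ v) (huv : v ≤ u) (t : ℕ) (c : Bool) :
    u ^ (gst u v t).1 * v ^ (gst u v t).2 / u ≤ gam u v t c := by
  have hu : 1 ≤ u := le_trans hv huv
  obtain ⟨h1, h2⟩ := gst_inv hv huv t
  have e1 : ∀ (x : ℝ) (n : ℕ), (x ^ 2) ^ n = (x ^ n) ^ 2 := fun x n => by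
    rw [← pow_mul, ← pow_mul, mul_comm]
  have ha : 0 < u ^ (gst u v t).1 := by positivity
  have hb : 0 < v ^ (gst u v t).2 := by positivity
  unfold gam
  rw [div_le_iff₀ (by linarith)]
  cases c <;> simp only [e1] <;> simp <;> nlinarith

theorem gauge_nat {u v : ℝ} (hv : 1 ≤ v) (huv : v ≤ u) (c : ℕ → Bool) (k : ℕ) :
    (∏ t ∈ range (k + 1), om (u ^ 2) (v ^ 2) (gwd u v t) (c t)) * gam u v (k + 1) (c k) ≤
      ∏ j ∈ range k, (if c j ≠ c (j + 1) then u ^ 2 else 1) := by
  have hv0 : 0 < v := by linarith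
  have hu0 : 0 < u := by linarith
  induction k with
  | zero =>
    rw [prod_range_one, om_gam hu0 hv0]
    simp [gam, gst]
  | succ k ih =>
    rw [prod_range_succ _ (k + 1), mul_assoc, om_gam hu0 hv0,
      prod_range_succ (fun j => if c j ≠ c (j + 1) then u ^ 2 else (1 : ℝ)) k]
    have hp : 0 ≤ ∏ t ∈ range (k + 1), om (u ^ 2) (v ^ 2) (gwd u v t) (c t) :=
      prod_nonneg fun _ _ => om_nonneg (by positivity) (by positivity) _ _
    have hs : (0 : ℝ) ≤ if c k ≠ c (k + 1) then u ^ 2 else 1 := by split_ifs <;> positivity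
    calc _ ≤ (∏ t ∈ range (k + 1), om (u ^ 2) (v ^ 2) (gwd u v t) (c t)) *
          (gam u v (k + 1) (c k) * (if c k ≠ c (k + 1) then u ^ 2 else 1)) :=
          mul_le_mul_of_nonneg_left (gam_switch hv huv _ _ _) hp
      _ ≤ _ := by
          rw [← mul_assoc]
          exact mul_le_mul_of_nonneg_right ih hs

theorem exists_word (k : ℕ) {u v : ℝ} (hv : 1 ≤ v) (huv : v ≤ u) :
    ∃ word : Fin (k + 1) → Bool, ∀ c : Fin (k + 1) → Bool,
      ∏ t, om (u ^ 2) (v ^ 2) (word t) (c t) ≤ (u ^ na word * v ^ nb word / u)⁻¹ *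
        ∏ j : Fin k, (if c j.castSucc ≠ c j.succ then u ^ 2 else 1) := by
  have hv0 : 0 < v := by linarith
  have hu0 : 0 < u := by linarith
  refine ⟨fun t => gwd u v t, fun c => ?_⟩
  have ha : na (fun t : Fin (k + 1) => gwd u v t) = (gst u v (k + 1)).1 := by
    rw [gst_fst, na, card_filter,
      Fin.sum_univ_eq_sum_range (fun i => if gwd u v i = true then 1 else 0)]
  have hb : nb (fun t : Fin (k + 1) => gwd u v t) = (gst u v (k + 1)).2 := by
    rw [gst_snd, nb, card_filter,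
      Fin.sum_univ_eq_sum_range (fun i => if ¬ gwd u v i = true then 1 else 0)]
  let c' : ℕ → Bool := fun t => if h : t < k + 1 then c ⟨t, h⟩ else false
  have hc' : ∀ t : Fin (k + 1), c t = c' t := fun t => by simp only [c', dif_pos t.2]
  have h := gauge_nat hv huv c' k
  rw [← Fin.prod_univ_eq_prod_range (fun t => om (u ^ 2) (v ^ 2) (gwd u v t) (c' t)),
    ← Fin.prod_univ_eq_prod_range (fun j => if c' j ≠ c' (j + 1) then u ^ 2 else (1 : ℝ))] at h
  simp only [hc', Fin.val_castSucc, Fin.val_succ]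
  rw [ha, hb, ← div_eq_inv_mul, le_div_iff₀ (by positivity)]
  refine le_trans (mul_le_mul_of_nonneg_left (gam_ge hv huv (k + 1) (c' k)) ?_) h
  exact prod_nonneg fun _ _ => om_nonneg (by positivity) (by positivity) _ _

end Crest.Agent.R327
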